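import Mathlib

/-!
P067: mod 2 simplicial chains on finite vertex sets, the augmented boundary and coning.
-/

set_option linter.unusedSectionVars false

namespace Vale.Agent.P067.Sparse

open Finset

variable {α β : Type*} [DecidableEq α] [DecidableEq β]

/-- Chains: formal mod 2 sums of finite vertex sets. -/
abbrev Ch (α : Type*) := Finset α →₀ ZMod 2

/-- The augmented boundary (a vertex has boundary the empty face). -/
noncomputable def bd : Ch α →ₗ[ZMod 2] Ch α :=
  Finsupp.linearCombination (ZMod 2) fun σ => ∑ x ∈ σ, Finsupp.single (σ.erase x) 1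

/-- The cone with apex `v`; faces containing `v` go to zero. -/
noncomputable def cone (v : α) : Ch α →ₗ[ZMod 2] Ch α :=
  Finsupp.linearCombination (ZMod 2) fun σ =>
    if v ∈ σ then 0 else Finsupp.single (insert v σ) 1

theorem bd_single (σ : Finset α) :
    bd (Finsupp.single σ 1) = ∑ x ∈ σ, Finsupp.single (σ.erase x) 1 := by
  simp [bd]

theorem cone_single (v : α) (σ : Finset α) :
    cone v (Finsupp.single σ 1) = if v ∈ σ then 0 else Finsupp.single (insert v σ) 1 := by
  simp [cone]

theorem add_self_eq_zero' {M : Type*} [AddCommGroup M] [Module (ZMod 2) M] (x : M) : x + x = 0 := by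
  rw [← two_smul (ZMod 2) x, show (2 : ZMod 2) = 0 from rfl, zero_smul]

theorem bd_cone (v : α) (z : Ch α) : bd (cone v z) + cone v (bd z) = z := by
  suffices h : bd ∘ₗ cone v + cone v ∘ₗ bd = LinearMap.id from LinearMap.congr_fun h z
  refine Finsupp.lhom_ext' fun σ => LinearMap.ext_ring ?_
  simp only [LinearMap.comp_apply, LinearMap.add_apply, Finsupp.lsingle_apply, LinearMap.id_apply,
    cone_single, bd_single, map_sum]
  by_cases h : v ∈ σ
  · rw [if_pos h, map_zero, zero_add, sum_eq_single v (fun x hx hxv => ?_) (fun hv => absurd h hv)]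
    · rw [if_neg (by simp), insert_erase h]
    · rw [if_pos (mem_erase.2 ⟨Ne.symm hxv, h⟩)]
  · rw [if_neg h, bd_single, sum_insert h, erase_insert h, add_assoc]
    refine add_eq_left.2 ?_
    rw [← sum_add_distrib]
    refine sum_eq_zero fun x hx => ?_
    rw [if_neg fun hv => h (mem_erase.1 hv).2,
      erase_insert_of_ne (show v ≠ x from fun e => h (e ▸ hx))]
    exact add_self_eq_zero' _

theorem bd_cone_of_cycle (v : α) {z : Ch α} (hz : bd z = 0) : bd (cone v z) = z := by
  simpa [hz] using bd_cone v z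

theorem bd_bd (z : Ch α) : bd (bd z) = 0 := by
  suffices h : bd ∘ₗ bd = (0 : Ch α →ₗ[ZMod 2] Ch α) from LinearMap.congr_fun h z
  refine Finsupp.lhom_ext' fun σ => LinearMap.ext_ring ?_
  simp only [LinearMap.comp_apply, Finsupp.lsingle_apply, LinearMap.zero_apply]
  induction σ using Finset.induction_on with
  | empty => simp [bd_single]
  | insert v σ hv ih =>
    have hc : cone v (Finsupp.single σ 1) = Finsupp.single (insert v σ) 1 := by
      rw [cone_single, if_neg hv]
    have h1 := bd_cone v (Finsupp.single σ (1 : ZMod 2))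
    have h2 := bd_cone v (bd (Finsupp.single σ (1 : ZMod 2)))
    rw [ih, map_zero, add_zero] at h2
    rw [← hc]
    have h3 := congrArg bd h1
    rw [map_add, h2] at h3
    exact add_eq_right.1 h3

/-- All faces in the support of `z` satisfy `P`. -/
def On (P : Finset α → Prop) (z : Ch α) : Prop := ∀ σ ∈ z.support, P σ

theorem On.mono {P Q : Finset α → Prop} {z : Ch α} (h : On P z) (hPQ : ∀ σ, P σ → Q σ) : On Q z :=
  fun σ hσ => hPQ σ (h σ hσ)

theorem On.zero {P : Finset α → Prop} : On P (0 : Ch α) := fun σ hσ => by simp at hσ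

theorem On.single {P : Finset α → Prop} {σ : Finset α} {c : ZMod 2} (h : P σ) :
    On P (Finsupp.single σ c) :=
  fun _ hτ => (mem_singleton.1 (Finsupp.support_single_subset hτ)) ▸ h

theorem On.add {P : Finset α → Prop} {y z : Ch α} (hy : On P y) (hz : On P z) : On P (y + z) :=
  fun σ hσ => (mem_union.1 (Finsupp.support_add hσ)).elim (hy σ) (hz σ)

theorem On.sum {ι : Type*} {P : Finset α → Prop} {s : Finset ι} {f : ι → Ch α}
    (h : ∀ i ∈ s, On P (f i)) : On P (∑ i ∈ s, f i) := by
  classical
  induction s using Finset.induction_on with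
  | empty => simpa using On.zero
  | insert a s ha ih =>
    rw [sum_insert ha]
    exact (h a (mem_insert_self a s)).add (ih fun i hi => h i (mem_insert_of_mem hi))

theorem support_linearCombination {ι : Type*} (g : ι → Ch α) (z : ι →₀ ZMod 2) {σ : Finset α}
    (h : σ ∈ (Finsupp.linearCombination (ZMod 2) g z).support) :
    ∃ τ ∈ z.support, σ ∈ (g τ).support := by
  rw [Finsupp.linearCombination_apply] at h
  obtain ⟨τ, hτ, h⟩ := mem_biUnion.1 (Finsupp.support_sum h)
  exact ⟨τ, hτ, Finsupp.support_smul h⟩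

theorem card_support_sum_le {ι : Type*} (s : Finset ι) (f : ι → Ch α) :
    (∑ i ∈ s, f i).support.card ≤ ∑ i ∈ s, (f i).support.card :=
  (card_le_card (Finsupp.support_finsetSum (s := s) (f := f))).trans card_biUnion_le

theorem card_linearCombination_le {ι : Type*} (g : ι → Ch α) (z : ι →₀ ZMod 2) :
    (Finsupp.linearCombination (ZMod 2) g z).support.card ≤
      ∑ τ ∈ z.support, (g τ).support.card := by
  rw [Finsupp.linearCombination_apply]
  exact (card_support_sum_le _ _).trans (sum_le_sum fun τ _ => card_le_card Finsupp.support_smul)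

theorem mem_support_cone {v : α} {z : Ch α} {σ : Finset α} (h : σ ∈ (cone v z).support) :
    ∃ τ ∈ z.support, v ∉ τ ∧ σ = insert v τ := by
  obtain ⟨τ, hτ, h⟩ := support_linearCombination _ _ h
  by_cases hv : v ∈ τ
  · simp [hv] at h
  · rw [if_neg hv] at h
    exact ⟨τ, hτ, hv, mem_singleton.1 (Finsupp.support_single_subset h)⟩

theorem card_cone_le (v : α) (z : Ch α) : (cone v z).support.card ≤ z.support.card := by
  refine (card_le_card fun σ hσ => ?_).trans
    (card_image_le (s := z.support) (f := insert v))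
  obtain ⟨τ, hτ, -, rfl⟩ := mem_support_cone hσ
  exact mem_image_of_mem _ hτ

theorem mem_support_bd {z : Ch α} {σ : Finset α} (h : σ ∈ (bd z).support) :
    ∃ τ ∈ z.support, ∃ x ∈ τ, σ = τ.erase x := by
  obtain ⟨τ, hτ, h⟩ := support_linearCombination _ _ h
  obtain ⟨x, hx, h⟩ := mem_biUnion.1 (Finsupp.support_finsetSum h)
  exact ⟨τ, hτ, x, hx, mem_singleton.1 (Finsupp.support_single_subset h)⟩

/-- The link part of `z` at `v`: the faces containing `v`, with `v` erased. -/
noncomputable def lk (v : α) : Ch α →ₗ[ZMod 2] Ch α :=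
  Finsupp.linearCombination (ZMod 2) fun σ =>
    if v ∈ σ then Finsupp.single (σ.erase v) 1 else 0

theorem lk_single (v : α) (σ : Finset α) :
    lk v (Finsupp.single σ 1) = if v ∈ σ then Finsupp.single (σ.erase v) 1 else 0 := by
  simp [lk]

theorem mem_support_lk {v : α} {z : Ch α} {σ : Finset α} (h : σ ∈ (lk v z).support) :
    ∃ τ ∈ z.support, v ∈ τ ∧ σ = τ.erase v := by
  obtain ⟨τ, hτ, h⟩ := support_linearCombination _ _ h
  by_cases hv : v ∈ τ
  · rw [if_pos hv] at h
    exact ⟨τ, hτ, hv, mem_singleton.1 (Finsupp.support_single_subset h)⟩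
  · simp [hv] at h

theorem card_lk_le (v : α) (z : Ch α) :
    (lk v z).support.card ≤ (z.support.filter (v ∈ ·)).card := by
  refine (card_le_card fun σ hσ => ?_).trans
    (card_image_le (s := z.support.filter (v ∈ ·)) (f := fun τ => τ.erase v))
  obtain ⟨τ, hτ, hv, rfl⟩ := mem_support_lk hσ
  exact mem_image.2 ⟨τ, mem_filter.2 ⟨hτ, hv⟩, rfl⟩

theorem bd_lk (v : α) (z : Ch α) : bd (lk v z) = lk v (bd z) := by
  suffices h : bd ∘ₗ lk v = lk v ∘ₗ bd from LinearMap.congr_fun h z
  refine Finsupp.lhom_ext' fun σ => LinearMap.ext_ring ?_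
  simp only [LinearMap.comp_apply, Finsupp.lsingle_apply, lk_single, bd_single, map_sum]
  by_cases h : v ∈ σ
  · rw [if_pos h, bd_single, ← sum_erase_add σ _ h]
    rw [if_neg (by simp : v ∉ σ.erase v), add_zero]
    refine sum_congr rfl fun x hx => ?_
    rw [if_pos (mem_erase.2 ⟨Ne.symm (mem_erase.1 hx).1, h⟩), erase_right_comm]
  · rw [if_neg h, map_zero]
    exact (sum_eq_zero fun x hx => if_neg fun hv => h (mem_erase.1 hv).2).symm

end Vale.Agent.P067.Sparse
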