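import Vale.Agent.P067.Defs
import Vale.Agent.P067.Sparse.Chains

/-!
P067: from fillings of bounded size to a chain contraction with columns of bounded size, and the
effect of relabelling the vertices.
-/

set_option linter.unusedSectionVars false

namespace Vale.Agent.P067.Sparse

open Finset

variable {X Y : Type} [DecidableEq X] [DecidableEq Y]

theorem eq_of_on {P : Finset X → Prop} {M : Type*} [AddCommGroup M] [Module (ZMod 2) M]
    {L L' : Ch X →ₗ[ZMod 2] M}
    (h : ∀ σ, P σ → L (Finsupp.single σ 1) = L' (Finsupp.single σ 1)) {z : Ch X} (hz : On P z) :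
    L z = L' z := by
  conv_lhs => rw [← Finsupp.sum_single z]
  conv_rhs => rw [← Finsupp.sum_single z]
  simp only [Finsupp.sum, map_sum]
  refine sum_congr rfl fun σ hσ => ?_
  rw [show Finsupp.single σ (z σ) = z σ • Finsupp.single σ 1 by
    rw [Finsupp.smul_single, smul_eq_mul, mul_one], map_smul, map_smul, h σ (hz σ hσ)]

/-- Relabelling of the vertices. -/
noncomputable def push (f : X → Y) : Ch X →ₗ[ZMod 2] Ch Y :=
  Finsupp.lmapDomain (ZMod 2) (ZMod 2) (Finset.image f)

theorem push_single (f : X → Y) (σ : Finset X) :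
    push f (Finsupp.single σ 1) = Finsupp.single (σ.image f) 1 := by
  simp [push]

theorem bd_push {f : X → Y} (hf : Function.Injective f) (z : Ch X) :
    bd (push f z) = push f (bd z) := by
  suffices h : bd ∘ₗ push f = push f ∘ₗ bd from LinearMap.congr_fun h z
  refine Finsupp.lhom_ext' fun σ => LinearMap.ext_ring ?_
  simp only [LinearMap.comp_apply, Finsupp.lsingle_apply, push_single, bd_single, map_sum]
  rw [sum_image hf.injOn]
  exact sum_congr rfl fun x _ => by rw [image_erase hf]

theorem mem_support_push {f : X → Y} {z : Ch X} {σ : Finset Y} (h : σ ∈ (push f z).support) :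
    ∃ τ ∈ z.support, σ = τ.image f := by
  obtain ⟨τ, hτ, rfl⟩ := mem_image.1 (Finsupp.mapDomain_support h)
  exact ⟨τ, hτ, rfl⟩

variable [Fintype X] {F : Finset (Finset X)}

/-- A contraction in degree `j`: `Hc` raises the degree by one and has columns of size at most
`M`; `Hp` is the contraction one degree below. -/
def Contraction (F : Finset (Finset X)) (j M : ℕ) (Hp Hc : Ch X →ₗ[ZMod 2] Ch X) : Prop :=
  ∀ σ ∈ faces F j, On (· ∈ faces F (j + 1)) (Hc (Finsupp.single σ 1)) ∧
    (Hc (Finsupp.single σ 1)).support.card ≤ M ∧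
    bd (Hc (Finsupp.single σ 1)) + Hp (bd (Finsupp.single σ 1)) = Finsupp.single σ 1

theorem bd_single_on {j : ℕ} {σ : Finset X} (hσ : σ ∈ faces F (j + 1)) :
    On (· ∈ faces F j) (bd (Finsupp.single σ 1)) := by
  intro τ hτ
  obtain ⟨σ', hσ', x, hx, rfl⟩ := mem_support_bd hτ
  rw [mem_singleton.1 (Finsupp.support_single_subset hσ')] at hx ⊢
  simp only [faces, mem_filter, mem_univ, true_and] at hσ ⊢
  obtain ⟨hc, t, ht, hst⟩ := hσ
  exact ⟨by rw [card_erase_of_mem hx, hc, Nat.add_sub_cancel], t, ht,
    (erase_subset _ _).trans hst⟩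

/-- The size bound of the contraction built from fillings of size `M`. -/
def homBound (M : ℕ) : ℕ → ℕ
  | 0 => M
  | j + 1 => M * (1 + (j + 1) * homBound M j)

theorem exists_contraction (d M : ℕ)
    (hfill : ∀ j ≤ d, ∀ z : Ch X, On (· ∈ faces F j) z → bd z = 0 →
      ∃ y : Ch X, On (· ∈ faces F (j + 1)) y ∧ bd y = z ∧ y.support.card ≤ M * z.support.card) :
    ∀ j ≤ d, ∃ Hp Hc, Contraction F j (homBound M j) Hp Hc := by
  classical
  intro j hj
  induction j with
  | zero =>
    have hex : ∀ σ ∈ faces F 0, ∃ y : Ch X, On (· ∈ faces F (0 + 1)) y ∧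
        bd y = Finsupp.single σ 1 ∧ y.support.card ≤ M := by
      intro σ hσ
      have h0 : σ = ∅ := card_eq_zero.1 (mem_filter.1 hσ).2.1
      obtain ⟨y, h1, h2, h3⟩ := hfill 0 hj (Finsupp.single σ 1) (On.single hσ)
        (by rw [bd_single, h0, sum_empty])
      exact ⟨y, h1, h2, h3.trans
        (by simp)⟩
    choose! y hy using hex
    refine ⟨0, Finsupp.linearCombination (ZMod 2) y, fun σ hσ => ?_⟩
    simp only [Finsupp.linearCombination_single, one_smul, LinearMap.zero_apply, add_zero]
    exact ⟨(hy σ hσ).1, (hy σ hσ).2.2, (hy σ hσ).2.1⟩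
  | succ j ih =>
    obtain ⟨Hp, Hc, hH⟩ := ih (by omega)
    have hex : ∀ σ ∈ faces F (j + 1), ∃ y : Ch X, On (· ∈ faces F (j + 1 + 1)) y ∧
        bd y = Finsupp.single σ 1 + Hc (bd (Finsupp.single σ 1)) ∧
        y.support.card ≤ M * (1 + (j + 1) * homBound M j) := by
      intro σ hσ
      have hon := bd_single_on hσ
      have hbd : bd (Hc (bd (Finsupp.single σ 1))) = bd (Finsupp.single σ 1) := by
        have h := eq_of_on (L := bd.comp Hc + Hp.comp bd) (L' := LinearMap.id)
          (fun τ hτ => (hH τ hτ).2.2) hon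
        simpa [bd_bd] using h
      have hsum : Hc (bd (Finsupp.single σ 1)) =
          ∑ x ∈ σ, Hc (Finsupp.single (σ.erase x) 1) := by rw [bd_single, map_sum]
      have hmem : ∀ x ∈ σ, σ.erase x ∈ faces F j := fun x hx => by
        simp only [faces, mem_filter, mem_univ, true_and] at hσ ⊢
        obtain ⟨hc, t, ht, hst⟩ := hσ
        exact ⟨by rw [card_erase_of_mem hx, hc, Nat.add_sub_cancel], t, ht,
          (erase_subset _ _).trans hst⟩
      have hcard : (Hc (bd (Finsupp.single σ 1))).support.card ≤ (j + 1) * homBound M j := by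
        rw [hsum]
        refine (card_support_sum_le _ _).trans ((sum_le_sum fun x hx =>
          (hH _ (hmem x hx)).2.1).trans (le_of_eq ?_))
        rw [sum_const, smul_eq_mul, (mem_filter.1 hσ).2.1]
      obtain ⟨y, h1, h2, h3⟩ := hfill (j + 1) hj
        (Finsupp.single σ 1 + Hc (bd (Finsupp.single σ 1)))
        ((On.single hσ).add (by rw [hsum]; exact On.sum fun x hx => (hH _ (hmem x hx)).1))
        (by rw [map_add, hbd, add_self_eq_zero'])
      refine ⟨y, h1, h2, h3.trans (Nat.mul_le_mul_left _ ?_)⟩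
      refine (card_le_card Finsupp.support_add).trans ((card_union_le _ _).trans
        (add_le_add ?_ hcard))
      exact (card_le_card Finsupp.support_single_subset).trans (card_singleton σ).le
    choose! y hy using hex
    refine ⟨Hc, Finsupp.linearCombination (ZMod 2) y, fun σ hσ => ?_⟩
    simp only [Finsupp.linearCombination_single, one_smul]
    refine ⟨(hy σ hσ).1, (hy σ hσ).2.2, ?_⟩
    rw [(hy σ hσ).2.1, add_assoc, add_self_eq_zero', add_zero]

end Vale.Agent.P067.Sparse
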