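import Vale.Agent.P067.Sparse.Homotopy

/-!
P067: a complex with contractions of bounded size whose automorphisms are transitive on the top
faces is a coboundary expander (averaging over the automorphisms).
-/

set_option linter.unusedSectionVars false

namespace Vale.Agent.P067.Sparse

open Finset

variable {X : Type} [Fintype X] [DecidableEq X] {F : Finset (Finset X)}

/-- The permutations of the vertices preserving the top faces. -/
def autF (F : Finset (Finset X)) : Finset (Equiv.Perm X) :=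
  univ.filter fun e => ∀ t, t ∈ F ↔ t.image e ∈ F

theorem mem_autF {e : Equiv.Perm X} : e ∈ autF F ↔ ∀ t, t ∈ F ↔ t.image e ∈ F := by
  simp [autF]

theorem symm_mem_autF {e : Equiv.Perm X} (he : e ∈ autF F) : e.symm ∈ autF F := by
  refine mem_autF.2 fun t => ?_
  rw [mem_autF.1 he (t.image e.symm), image_image, Equiv.self_comp_symm, image_id]

theorem mul_mem_autF {e e' : Equiv.Perm X} (he : e ∈ autF F) (he' : e' ∈ autF F) :
    e * e' ∈ autF F := by
  refine mem_autF.2 fun t => ?_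
  rw [mem_autF.1 he' t, mem_autF.1 he (t.image e'), image_image]
  rfl

theorem image_mem_faces {e : Equiv.Perm X} (he : e ∈ autF F) {k : ℕ} {σ : Finset X}
    (hσ : σ ∈ faces F k) : σ.image e ∈ faces F k := by
  simp only [faces, mem_filter, mem_univ, true_and] at hσ ⊢
  obtain ⟨hc, t, ht, hst⟩ := hσ
  exact ⟨by rw [card_image_of_injective _ e.injective, hc], t.image e, (mem_autF.1 he t).1 ht,
    image_subset_image hst⟩

theorem card_top_image {e : Equiv.Perm X} (he : e ∈ autF F) (σ : Finset X) :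
    (F.filter fun t => σ.image e ⊆ t).card = (F.filter fun t => σ ⊆ t).card := by
  have h : (F.filter fun t => σ.image e ⊆ t) = (F.filter fun t => σ ⊆ t).image (Finset.image e) := by
    ext t
    simp only [mem_filter, mem_image]
    constructor
    · rintro ⟨ht, hst⟩
      have ht' : t.image e.symm ∈ F := (mem_autF.1 (symm_mem_autF he) t).1 ht
      refine ⟨t.image e.symm, ⟨ht', ?_⟩, ?_⟩
      · have := image_subset_image (f := e.symm) hst
        rwa [image_image, Equiv.symm_comp_self, image_id] at this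
      · rw [image_image, Equiv.self_comp_symm, image_id]
    · rintro ⟨s, ⟨hs, hσs⟩, rfl⟩
      exact ⟨(mem_autF.1 he s).1 hs, image_subset_image hσs⟩
  rw [h, card_image_of_injective _ (image_injective e.injective)]

theorem contraction_conj {e : Equiv.Perm X} (he : e ∈ autF F) {j M : ℕ}
    {Hp Hc : Ch X →ₗ[ZMod 2] Ch X} (h : Contraction F j M Hp Hc) :
    Contraction F j M (push e ∘ₗ Hp ∘ₗ push e.symm) (push e ∘ₗ Hc ∘ₗ push e.symm) := by
  intro σ hσ
  obtain ⟨h1, h2, h3⟩ := h (σ.image e.symm) (image_mem_faces (symm_mem_autF he) hσ)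
  simp only [LinearMap.comp_apply, push_single, ← bd_push e.symm.injective]
  refine ⟨fun τ hτ => ?_, ?_, ?_⟩
  · obtain ⟨τ', hτ', rfl⟩ := mem_support_push hτ
    exact image_mem_faces he (h1 τ' hτ')
  · refine (card_le_card fun τ hτ => ?_).trans ((card_image_le (f := Finset.image e)).trans h2)
    obtain ⟨τ', hτ', rfl⟩ := mem_support_push hτ
    exact mem_image_of_mem _ hτ'
  · rw [bd_push e.injective, ← map_add, h3, push_single, image_image, Equiv.self_comp_symm,
      image_id]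

theorem sum_autF {t₀ : Finset X} (ht₀ : t₀ ∈ F)
    (htr : ∀ t ∈ F, ∀ t' ∈ F, ∃ e ∈ autF F, t.image e = t') (φ : Finset X → ℕ) :
    F.card * ∑ e ∈ autF F, φ (t₀.image e) = (autF F).card * ∑ t ∈ F, φ t := by
  have hconst : ∀ t ∈ F, ∑ e ∈ autF F, φ (t₀.image e) = ∑ e ∈ autF F, φ (t.image e) := by
    intro t ht
    obtain ⟨h, hh, rfl⟩ := htr t₀ ht₀ t ht
    refine sum_nbij' (· * h.symm) (· * h) (fun e he => mul_mem_autF he (symm_mem_autF hh))
      (fun e he => mul_mem_autF he hh) (fun e _ => ?_) (fun e _ => ?_) (fun e _ => ?_)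
    · ext x; simp
    · ext x; simp
    · rw [image_image]
      congr 2
      funext x
      simp
  rw [← smul_eq_mul, ← sum_const, sum_congr rfl hconst, sum_comm, ← smul_eq_mul, ← sum_const]
  refine sum_congr rfl fun e he => ?_
  refine sum_nbij' (Finset.image e) (Finset.image e.symm) (fun t ht => (mem_autF.1 he t).1 ht)
    (fun t ht => (mem_autF.1 (symm_mem_autF he) t).1 ht) (fun t _ => ?_) (fun t _ => ?_)
    (fun t _ => rfl)
  · rw [image_image, Equiv.symm_comp_self, image_id]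
  · rw [image_image, Equiv.self_comp_symm, image_id]

/-- Number of top faces through a face. -/
def wt (F : Finset (Finset X)) (σ : Finset X) : ℕ := (F.filter fun t => σ ⊆ t).card

theorem sum_wt {d : ℕ} (hF : ∀ t ∈ F, t.card = d + 1) (k : ℕ) :
    ∑ σ ∈ faces F k, wt F σ = (d + 1).choose k * F.card := by
  simp only [wt, card_filter]
  rw [sum_comm, mul_comm, ← smul_eq_mul, ← sum_const]
  refine sum_congr rfl fun t ht => ?_
  rw [← card_filter, ← hF t ht, ← card_powersetCard]
  congr 1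
  ext σ
  simp only [faces, mem_filter, mem_univ, true_and, mem_powersetCard]
  exact ⟨fun h => ⟨h.2, h.1.1⟩, fun h => ⟨⟨h.2, t, ht, h.1⟩, h.1⟩⟩

/-- A cochain, extended linearly to all chains. -/
noncomputable def ext {k : ℕ} (f : Cochain F k) : Ch X →ₗ[ZMod 2] ZMod 2 :=
  Finsupp.linearCombination (ZMod 2) fun σ => if h : σ ∈ faces F k then f ⟨σ, h⟩ else 0

theorem ext_single {k : ℕ} (f : Cochain F k) (σ : {σ // σ ∈ faces F k}) :
    ext f (Finsupp.single σ.1 1) = f σ := by
  simp [ext, σ.2]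

theorem cbd_apply' {k : ℕ} (f : Cochain F k) (τ : {σ // σ ∈ faces F (k + 1)}) :
    cbd F k f τ = ∑ σ ∈ univ.filter (fun σ : {σ // σ ∈ faces F k} => σ.1 ⊆ τ.1), f σ := rfl

theorem cbd_eq_ext {k : ℕ} (f : Cochain F k) (τ : {σ // σ ∈ faces F (k + 1)}) :
    cbd F k f τ = ext f (bd (Finsupp.single τ.1 1)) := by
  have hτ := τ.2
  simp only [faces, mem_filter, mem_univ, true_and] at hτ
  obtain ⟨hc, t, ht, hst⟩ := hτ
  rw [bd_single, map_sum, cbd_apply']
  set g : Finset X → ZMod 2 := fun σ => if h : σ ∈ faces F k then f ⟨σ, h⟩ else 0 with hg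
  have hext : ∀ σ : Finset X, ext f (Finsupp.single σ 1) = g σ := fun σ => by simp [ext, hg]
  have hmem : ∀ σ ⊆ τ.1, σ.card = k → σ ∈ faces F k := fun σ hσ hσc => by
    simp only [faces, mem_filter, mem_univ, true_and]
    exact ⟨hσc, t, ht, hσ.trans hst⟩
  simp only [hext]
  rw [← sum_image (f := g) (g := fun x => τ.1.erase x) (erase_injOn τ.1)]
  refine sum_bij (fun σ _ => σ.1) (fun σ hσ => ?_) (fun σ _ σ' _ h => Subtype.ext h)
    (fun ρ hρ => ?_) (fun σ hσ => by simp [hg, σ.2])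
  · have hσs : σ.1 ⊆ τ.1 := (mem_filter.1 hσ).2
    have hc' : σ.1.card = k := (mem_filter.1 σ.2).2.1
    obtain ⟨x, hx⟩ := card_eq_one.1 (show (τ.1 \ σ.1).card = 1 by
      rw [card_sdiff_of_subset hσs, hc, hc', Nat.add_sub_cancel_left])
    have hxm : x ∈ τ.1 \ σ.1 := hx ▸ mem_singleton_self x
    refine mem_image.2 ⟨x, (mem_sdiff.1 hxm).1, (eq_of_subset_of_card_le
      (fun y hy => mem_erase.2 ⟨fun e => (mem_sdiff.1 hxm).2 (by subst e; exact hy), hσs hy⟩) ?_).symm⟩
    rw [card_erase_of_mem (mem_sdiff.1 hxm).1, hc, hc', Nat.add_sub_cancel]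
  · obtain ⟨x, hx, rfl⟩ := mem_image.1 hρ
    refine ⟨⟨τ.1.erase x, hmem _ (erase_subset _ _)
      (by rw [card_erase_of_mem hx, hc, Nat.add_sub_cancel])⟩, ?_, rfl⟩
    simp [erase_subset]

theorem ext_add {k : ℕ} (f f' : Cochain F k) (z : Ch X) :
    ext (f + f') z = ext f z + ext f' z := by
  have h : ext (f + f') = ext f + ext f' := by
    refine Finsupp.lhom_ext' fun σ => LinearMap.ext_ring ?_
    simp only [LinearMap.comp_apply, LinearMap.add_apply, Finsupp.lsingle_apply, ext,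
      Finsupp.linearCombination_single, one_smul]
    split_ifs <;> simp
  exact LinearMap.congr_fun h z

/-- Support of a cochain as a set of faces. -/
noncomputable def csupp {k : ℕ} (f : Cochain F k) : Finset (Finset X) :=
  (univ.filter fun σ => f σ ≠ 0).map (Function.Embedding.subtype _)

theorem cnorm_eq {d k : ℕ} (f : Cochain F k) :
    cnorm d F k f = ((∑ σ ∈ csupp f, wt F σ : ℕ) : ℝ) / (((d + 1).choose k : ℝ) * F.card) := by
  rw [cnorm, csupp, sum_map, Nat.cast_sum, sum_div]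
  rfl

theorem mem_csupp {k : ℕ} {f : Cochain F k} {σ : Finset X} (hσ : σ ∈ faces F k) :
    σ ∈ csupp f ↔ ext f (Finsupp.single σ 1) ≠ 0 := by
  rw [ext_single f ⟨σ, hσ⟩, csupp, mem_map]
  exact ⟨fun ⟨τ, hτ, e⟩ => by
    have : τ = ⟨σ, hσ⟩ := Subtype.ext e
    exact this ▸ (mem_filter.1 hτ).2, fun h => ⟨⟨σ, hσ⟩, mem_filter.2 ⟨mem_univ _, h⟩, rfl⟩⟩

theorem csupp_subset {k : ℕ} (f : Cochain F k) : csupp f ⊆ faces F k := by
  intro σ hσ
  obtain ⟨τ, -, rfl⟩ := mem_map.1 hσ
  exact τ.2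

/-- Coboundary expansion in one degree from a single bounded contraction, in terms of the numbers
of top faces through the faces. -/
theorem exists_cobound {d M k : ℕ} (hne₀ : F.Nonempty) (hF : ∀ t ∈ F, t.card = d + 1)
    (htr : ∀ t ∈ F, ∀ t' ∈ F, ∃ e ∈ autF F, t.image e = t') {Hp Hc : Ch X →ₗ[ZMod 2] Ch X}
    (hH : Contraction F (k + 1) M Hp Hc) (f : Cochain F (k + 1)) :
    ∃ a : Cochain F k, ∑ σ ∈ csupp (f - cbd F k a), wt F σ ≤
      (d + 1).choose (k + 1) * (M * ∑ σ ∈ csupp (cbd F (k + 1) f), wt F σ) := by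
  classical
  obtain ⟨t₀, ht₀⟩ := hne₀
  set D : Finset (Finset X) := csupp (cbd F (k + 1) f) with hD
  have hfac : ∀ σ ∈ faces F (k + 1), ∀ τ ∈ (Hc (Finsupp.single σ 1)).support,
      ∀ e ∈ autF F, τ.image e ∈ faces F (k + 1 + 1) :=
    fun σ hσ τ hτ e he => image_mem_faces he ((hH σ hσ).1 τ hτ)
  -- the number of translates of one face that meet `D`
  have hcount : ∀ τ ∈ faces F (k + 1 + 1),
      F.card * ((autF F).filter fun e : Equiv.Perm X => τ.image e ∈ D).card ≤
        (autF F).card * ∑ σ ∈ D, wt F σ := by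
    intro τ hτ
    obtain ⟨t₁, ht₁, hτt⟩ := (mem_filter.1 hτ).2.2
    have h := sum_autF ht₁ htr fun t => (D.filter fun σ => σ ⊆ t).card
    have e2 : ∑ t ∈ F, (D.filter fun σ => σ ⊆ t).card = ∑ σ ∈ D, wt F σ := by
      simp only [wt, card_filter]
      exact sum_comm
    rw [← e2, ← h]
    refine Nat.mul_le_mul_left _ ?_
    rw [card_filter]
    refine sum_le_sum fun e _ => ?_
    split_ifs with hd
    · exact card_pos.2 ⟨τ.image e, mem_filter.2 ⟨hd, image_subset_image hτt⟩⟩
    · exact Nat.zero_le _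
  -- averaging
  set N : Equiv.Perm X → Finset X → ℕ := fun e σ =>
    ((Hc (Finsupp.single σ 1)).support.filter fun τ => τ.image e ∈ D).card with hN
  have htot : F.card * ∑ e ∈ autF F, ∑ σ ∈ faces F (k + 1), wt F σ * N e σ ≤
      (autF F).card * (((d + 1).choose (k + 1) * F.card) * (M * ∑ σ ∈ D, wt F σ)) := by
    have hper : ∀ σ ∈ faces F (k + 1),
        F.card * ∑ e ∈ autF F, N e σ ≤ (autF F).card * (M * ∑ σ ∈ D, wt F σ) := by
      intro σ hσ
      calc F.card * ∑ e ∈ autF F, N e σ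
          = ∑ τ ∈ (Hc (Finsupp.single σ 1)).support,
              F.card * ((autF F).filter fun e : Equiv.Perm X => τ.image e ∈ D).card := by
            simp only [hN, card_filter, mul_sum]
            exact sum_comm
        _ ≤ (Hc (Finsupp.single σ 1)).support.card • ((autF F).card * ∑ σ ∈ D, wt F σ) :=
            sum_le_card_nsmul _ _ _ fun τ hτ => hcount τ ((hH σ hσ).1 τ hτ)
        _ ≤ (autF F).card * (M * ∑ σ ∈ D, wt F σ) := by
            rw [smul_eq_mul, mul_left_comm]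
            exact Nat.mul_le_mul_left _ (Nat.mul_le_mul_right _ (hH σ hσ).2.1)
    calc F.card * ∑ e ∈ autF F, ∑ σ ∈ faces F (k + 1), wt F σ * N e σ
        = ∑ σ ∈ faces F (k + 1), wt F σ * (F.card * ∑ e ∈ autF F, N e σ) := by
          simp only [mul_sum]
          rw [sum_comm]
          exact sum_congr rfl fun σ _ => sum_congr rfl fun e _ => by ring
      _ ≤ ∑ σ ∈ faces F (k + 1), wt F σ * ((autF F).card * (M * ∑ σ ∈ D, wt F σ)) :=
          sum_le_sum fun σ hσ => Nat.mul_le_mul_left _ (hper σ hσ)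
      _ = _ := by rw [← sum_mul, sum_wt hF (k + 1)]; ring
  have hne : (autF F).Nonempty := ⟨1, mem_autF.2 fun t => by simp⟩
  obtain ⟨e, he, hmin⟩ := exists_min_image (autF F)
    (fun e => ∑ σ ∈ faces F (k + 1), wt F σ * N e σ) hne
  have hbest : F.card * ∑ σ ∈ faces F (k + 1), wt F σ * N e σ ≤
      ((d + 1).choose (k + 1) * F.card) * (M * ∑ σ ∈ D, wt F σ) := by
    refine (Nat.mul_le_mul_left_iff (card_pos.2 hne)).1 (le_trans ?_ htot)
    rw [mul_left_comm]
    refine Nat.mul_le_mul_left _ ?_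
    rw [← smul_eq_mul, ← sum_const]
    exact sum_le_sum fun e' he' => hmin e' he'
  -- the cochain
  have hK := contraction_conj he hH
  set Hp' := push e ∘ₗ Hp ∘ₗ push e.symm with hHp'
  set Hc' := push e ∘ₗ Hc ∘ₗ push e.symm with hHc'
  refine ⟨fun τ => ext f (Hp' (Finsupp.single τ.1 1)), ?_⟩
  set a : Cochain F k := fun τ => ext f (Hp' (Finsupp.single τ.1 1)) with ha
  have hkey : ∀ σ : {σ // σ ∈ faces F (k + 1)},
      (f - cbd F k a) σ = ext (cbd F (k + 1) f) (Hc' (Finsupp.single σ.1 1)) := by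
    intro σ
    obtain ⟨h1, -, h3⟩ := hK σ.1 σ.2
    have ea : cbd F k a σ = ext f (Hp' (bd (Finsupp.single σ.1 1))) := by
      rw [cbd_eq_ext]
      exact eq_of_on (L := ext a) (L' := ext f ∘ₗ Hp')
        (fun τ hτ => ext_single a ⟨τ, hτ⟩) (bd_single_on σ.2)
    have eb : ext (cbd F (k + 1) f) (Hc' (Finsupp.single σ.1 1)) =
        ext f (bd (Hc' (Finsupp.single σ.1 1))) :=
      eq_of_on (L := ext (cbd F (k + 1) f)) (L' := ext f ∘ₗ bd)
        (fun τ hτ => by
          rw [ext_single _ ⟨τ, hτ⟩, cbd_eq_ext]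
          rfl) h1
    have h := congrArg (ext f) h3
    rw [map_add, ext_single, ← ea, ← eb] at h
    rw [Pi.sub_apply, ← h, add_sub_cancel_right]
  have hsum : ∑ σ ∈ csupp (f - cbd F k a), wt F σ ≤
      ∑ σ ∈ faces F (k + 1), wt F σ * N e σ := by
    calc ∑ σ ∈ csupp (f - cbd F k a), wt F σ
        ≤ ∑ σ ∈ csupp (f - cbd F k a), wt F σ * N e (σ.image e.symm) := sum_le_sum fun σ hσ => by
          refine Nat.le_mul_of_pos_right _ (card_pos.2 ?_)
          have hσF := csupp_subset _ hσ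
          have h := (mem_csupp hσF).1 hσ
          rw [ext_single _ ⟨σ, hσF⟩, hkey ⟨σ, hσF⟩] at h
          by_contra hno
          rw [not_nonempty_iff_eq_empty, filter_eq_empty_iff] at hno
          refine h (eq_of_on (L := ext (cbd F (k + 1) f)) (L' := 0)
            (P := fun ρ => ρ ∈ faces F (k + 1 + 1) ∧ ρ ∉ D)
            (fun ρ hρ => not_not.1 fun hne' => hρ.2 ((mem_csupp hρ.1).2 hne')) fun ρ hρ => ?_)
          simp only [hHc', LinearMap.comp_apply, push_single] at hρ
          obtain ⟨ρ', hρ', rfl⟩ := mem_support_push hρ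
          exact ⟨hfac _ (image_mem_faces (symm_mem_autF he) hσF) ρ' hρ' e he, hno hρ'⟩
      _ ≤ ∑ σ ∈ faces F (k + 1), wt F σ * N e (σ.image e.symm) :=
          sum_le_sum_of_subset (csupp_subset _)
      _ = _ := by
          refine sum_nbij' (Finset.image e.symm) (Finset.image e)
            (fun σ hσ => image_mem_faces (symm_mem_autF he) hσ)
            (fun σ hσ => image_mem_faces he hσ)
            (fun σ _ => by rw [image_image, Equiv.self_comp_symm, image_id])
            (fun σ _ => by rw [image_image, Equiv.symm_comp_self, image_id]) fun σ _ => ?_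
          rw [wt, wt, card_top_image (symm_mem_autF he)]
  have hFpos : 0 < F.card := card_pos.2 ⟨t₀, ht₀⟩
  refine (Nat.mul_le_mul_left_iff hFpos).1 ?_
  refine ((Nat.mul_le_mul_left _ hsum).trans hbest).trans (le_of_eq ?_)
  ring

theorem expander_of_contraction {d M : ℕ} (hF : IsPure d F)
    (htr : ∀ t ∈ F, ∀ t' ∈ F, ∃ e ∈ autF F, t.image e = t')
    (hH : ∀ j ≤ d, ∃ Hp Hc, Contraction F j M Hp Hc) :
    IsCoboundaryExpander d (1 / (2 ^ (d + 1) * ((M : ℝ) + 1))) F := by
  classical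
  intro k hk f
  obtain ⟨Hp, Hc, hH⟩ := hH (k + 1) hk
  obtain ⟨a, hnat⟩ := exists_cobound hF.1 hF.2.1 htr hH f
  refine ⟨a, ?_⟩
  have hFpos : 0 < F.card := card_pos.2 hF.1
  set D : Finset (Finset X) := csupp (cbd F (k + 1) f) with hD
  show 1 / (2 ^ (d + 1) * ((M : ℝ) + 1)) * cnorm d F (k + 1) (f - cbd F k a) ≤ _
  rw [cnorm_eq, cnorm_eq]
  have hC : (0 : ℝ) < (d + 1).choose (k + 1) := by
    exact_mod_cast Nat.choose_pos (by omega)
  have hC' : (0 : ℝ) < (d + 1).choose (k + 1 + 1) := by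
    exact_mod_cast Nat.choose_pos (by omega)
  have hC2 : ((d + 1).choose (k + 1 + 1) : ℝ) ≤ 2 ^ (d + 1) := by
    exact_mod_cast Nat.choose_le_two_pow (d + 1) (k + 1 + 1)
  have hr : ((∑ σ ∈ csupp (f - cbd F k a), wt F σ : ℕ) : ℝ) ≤
      (d + 1).choose (k + 1) * ((M : ℝ) * ((∑ σ ∈ D, wt F σ : ℕ) : ℝ)) := by exact_mod_cast hnat
  have hFr : (0 : ℝ) < F.card := by exact_mod_cast hFpos
  rw [← hD]
  set S : ℝ := ((∑ σ ∈ D, wt F σ : ℕ) : ℝ) with hS
  set L : ℝ := ((∑ σ ∈ csupp (f - cbd F k a), wt F σ : ℕ) : ℝ) with hL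
  have hS0 : 0 ≤ S := Nat.cast_nonneg _
  have h1 : L / (((d + 1).choose (k + 1) : ℝ) * F.card) ≤ ((M : ℝ) + 1) * S / F.card := by
    rw [div_le_div_iff₀ (by positivity) hFr]
    calc L * (F.card : ℝ) ≤ ((d + 1).choose (k + 1) : ℝ) * ((M : ℝ) * S) * F.card := by gcongr
      _ ≤ ((d + 1).choose (k + 1) : ℝ) * (((M : ℝ) + 1) * S) * F.card := by gcongr; linarith
      _ = _ := by ring
  calc 1 / (2 ^ (d + 1) * ((M : ℝ) + 1)) * (L / (((d + 1).choose (k + 1) : ℝ) * F.card))
      ≤ 1 / (2 ^ (d + 1) * ((M : ℝ) + 1)) * (((M : ℝ) + 1) * S / F.card) := by gcongr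
    _ = S / (2 ^ (d + 1) * F.card) := by field_simp
    _ ≤ S / (((d + 1).choose (k + 1 + 1) : ℝ) * F.card) := by gcongr

end Vale.Agent.P067.Sparse
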