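import Vale.Agent.P067.Sparse.Flag

/-!
P067: coboundary expanders of every dimension in which every vertex lies in at most `n ^ γ` top
faces.
-/

set_option linter.unusedSectionVars false

namespace Vale.Agent.P067.Sparse

open Finset Module

theorem eq_empty_or_univ_of_expander {X : Type} [Fintype X] [DecidableEq X] {d : ℕ} {ε : ℝ}
    {F : Finset (Finset X)} (hF : IsPure d F) (hd : 1 ≤ d) (hε : 0 < ε)
    (hX : IsCoboundaryExpander d ε F) (S : Finset X) (hS : ∀ t ∈ F, t ⊆ S ∨ Disjoint t S) :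
    S = ∅ ∨ S = univ := by
  classical
  let f : Cochain F (0 + 1) := fun σ => if σ.1 ⊆ S then 1 else 0
  have hz : cbd F (0 + 1) f = 0 := by
    funext τ
    obtain ⟨hc, t, ht, hτt⟩ := (mem_filter.1 τ.2).2
    rw [cbd_apply', Pi.zero_apply]
    by_cases hts : t ⊆ S
    · have h1 : ∀ σ ∈ univ.filter (fun σ : {σ // σ ∈ faces F (0 + 1)} => σ.1 ⊆ τ.1), f σ = 1 :=
        fun σ hσ => if_pos ((((mem_filter.1 hσ).2).trans hτt).trans hts)
      rw [sum_congr rfl h1]
      have hcard : (univ.filter fun σ : {σ // σ ∈ faces F (0 + 1)} => σ.1 ⊆ τ.1).card = 2 := by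
        rw [← card_map (Function.Embedding.subtype _)]
        have : (univ.filter fun σ : {σ // σ ∈ faces F (0 + 1)} => σ.1 ⊆ τ.1).map
            (Function.Embedding.subtype _) = τ.1.powersetCard (0 + 1) := by
          ext σ
          simp only [mem_map, mem_filter, mem_univ, true_and, mem_powersetCard,
            Function.Embedding.coe_subtype]
          exact ⟨fun ⟨s, hs, e⟩ => e ▸ ⟨hs, (mem_filter.1 s.2).2.1⟩, fun ⟨hs, hσc⟩ =>
            ⟨⟨σ, mem_filter.2 ⟨mem_univ _, hσc, t, ht, hs.trans hτt⟩⟩, hs, rfl⟩⟩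
        rw [this, card_powersetCard, hc]
        rfl
      rw [sum_const]
      convert (by decide : (2 : ℕ) • (1 : ZMod 2) = 0) using 2
      convert hcard using 2
      ext
      simp
    · refine sum_eq_zero fun σ hσ => if_neg fun hσS => ?_
      obtain ⟨v, hv⟩ := card_pos.1 (show 0 < σ.1.card by rw [(mem_filter.1 σ.2).2.1]; omega)
      exact disjoint_left.1 ((hS t ht).resolve_left hts) (hτt ((mem_filter.1 hσ).2 hv)) (hσS hv)
  obtain ⟨a, ha⟩ := hX 0 hd f
  rw [hz] at ha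
  have h0 : cnorm d F (0 + 1 + 1) (0 : Cochain F (0 + 1 + 1)) = 0 := by simp [cnorm]
  rw [h0] at ha
  have hnorm : cnorm d F (0 + 1) (f - cbd F 0 a) ≤ 0 :=
    nonpos_of_mul_nonpos_right ha hε
  have hall : ∀ σ : {σ // σ ∈ faces F (0 + 1)}, f σ = cbd F 0 a σ := by
    intro σ
    by_contra hne
    have hpos : 0 < cnorm d F (0 + 1) (f - cbd F 0 a) := by
      refine sum_pos' (fun σ _ => by positivity) ⟨σ, mem_filter.2 ⟨mem_univ _, ?_⟩, ?_⟩
      · simpa [sub_eq_zero] using hne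
      · obtain ⟨-, t, ht, hσt⟩ := (mem_filter.1 σ.2).2
        have h1 : 0 < (F.filter fun t => σ.1 ⊆ t).card := card_pos.2 ⟨t, mem_filter.2 ⟨ht, hσt⟩⟩
        have h2 : 0 < (d + 1).choose (0 + 1) := Nat.choose_pos (by omega)
        have h3 : 0 < F.card := card_pos.2 hF.1
        positivity
    linarith
  have hmem : ∀ v : X, ({v} : Finset X) ∈ faces F (0 + 1) := fun v => by
    obtain ⟨t, ht, hv⟩ := hF.2.2 v
    exact mem_filter.2 ⟨mem_univ _, card_singleton v, t, ht, singleton_subset_iff.2 hv⟩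
  have hconst : ∀ v w : X, cbd F 0 a ⟨{v}, hmem v⟩ = cbd F 0 a ⟨{w}, hmem w⟩ := by
    intro v w
    rw [cbd_apply', cbd_apply']
    refine sum_congr (filter_congr fun σ _ => ?_) fun σ _ => rfl
    rw [card_eq_zero.1 (mem_filter.1 σ.2).2.1]
    simp
  rcases S.eq_empty_or_nonempty with h | ⟨v, hv⟩
  · exact Or.inl h
  refine Or.inr (eq_univ_iff_forall.2 fun w => ?_)
  have h := (hall ⟨{w}, hmem w⟩).trans ((hconst w v).trans (hall ⟨{v}, hmem v⟩).symm)
  simp only [f, singleton_subset_iff, hv, if_true] at h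
  by_contra hw
  simp [hw] at h

theorem exists_sparse (d : ℕ) (hd : 1 ≤ d) (γ : ℝ) (hγ : 0 < γ) :
    ∃ ε : ℝ, 0 < ε ∧ ∀ N : ℕ, ∃ (V : Type) (_ : Fintype V) (_ : DecidableEq V)
      (F : Finset (Finset V)), IsPure d F ∧ N ≤ Fintype.card V ∧
        (∀ S : Finset V, (∀ t ∈ F, t ⊆ S ∨ Disjoint t S) → S = ∅ ∨ S = univ) ∧
        (∀ v, ((F.filter fun t => v ∈ t).card : ℝ) ≤ (Fintype.card V : ℝ) ^ γ) ∧
        IsCoboundaryExpander d ε F := by
  classical
  obtain ⟨k₀, hk₀⟩ := exists_nat_ge (((2 * d + 1) * (d + 1) : ℕ) / γ : ℝ)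
  set k := max (d + 1) k₀ with hk
  have hkd : d + 1 ≤ k := le_max_left _ _
  have hkγ : (((2 * d + 1) * (d + 1) : ℕ) : ℝ) ≤ γ * (k : ℝ) := by
    have h := hk₀.trans (show (k₀ : ℝ) ≤ k by exact_mod_cast le_max_right (d + 1) k₀)
    rwa [div_le_iff₀' hγ] at h
  choose Mf hMf using fun j => fill (k + k) j
  set M₀ := (range (d + 1)).sup Mf with hM₀
  set M := (range (d + 1)).sup (homBound M₀) with hM
  refine ⟨1 / (2 ^ (d + 1) * ((M : ℝ) + 1)), by positivity, fun N => ?_⟩
  obtain ⟨p, hpN, hp⟩ := Nat.exists_infinite_primes N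
  have : Fact p.Prime := ⟨hp⟩
  let W := Fin k → ZMod p
  have hfr : finrank (ZMod p) (W × W) = k + k := by
    rw [Module.finrank_prod, Module.finrank_fin_fun]
  have hn : k + d ≤ finrank (ZMod p) (W × W) := by omega
  have hpure := isPure_flags (K := ZMod p) (V := W × W) hn
  have hexp : IsCoboundaryExpander d (1 / (2 ^ (d + 1) * ((M : ℝ) + 1)))
      (flags (ZMod p) (W × W) k d) := by
    refine expander_of_contraction hpure (fun t ht t' ht' => transitive_flags ht ht')
      fun j hj => ?_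
    obtain ⟨Hp, Hc, h⟩ := exists_contraction d M₀ (fun i hi z hz hc => by
      refine fill_flags hn (fun z hz hc => ?_) z hz hc
      obtain ⟨y, hy1, hy2, hy3⟩ := hMf i (ZMod p) (W × W) ⊥ ⊤ k (k + d) bot_le
        (by rw [finrank_top, finrank_bot, hfr]; omega) (by rw [finrank_bot]; omega) (by omega)
        (by rw [finrank_top]; exact hn) z hz hc
      exact ⟨y, hy1, hy2, hy3.trans
        (Nat.mul_le_mul_right _ (le_sup (mem_range.2 (by omega))))⟩) j hj
    exact ⟨Hp, Hc, fun σ hσ => ⟨(h σ hσ).1, (h σ hσ).2.1.trans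
      (le_sup (f := homBound M₀) (mem_range.2 (by omega))), (h σ hσ).2.2⟩⟩
  have hcard : p ^ (k * k) ≤ Fintype.card (Sub (ZMod p) (W × W) k d) := by
    have h := card_vertices (K := ZMod p) (W := W) k d (Module.finrank_fin_fun (ZMod p))
    rwa [Nat.card_zmod] at h
  refine ⟨Sub (ZMod p) (W × W) k d, inferInstance, inferInstance, flags (ZMod p) (W × W) k d,
    hpure, hpN.trans ((Nat.le_self_pow (by positivity) p).trans hcard),
    eq_empty_or_univ_of_expander hpure hd (by positivity) hexp, fun v => ?_, hexp⟩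
  have hdeg := degree_flags v
  have hV : Nat.card (W × W) = p ^ (k + k) := by
    simp [W, Nat.card_eq_fintype_card, pow_add]
  rw [hV] at hdeg
  have hnat : (2 * (p ^ (k + k)) ^ d) ^ (d + 1) ≤ p ^ (k * ((2 * d + 1) * (d + 1))) := by
    rw [show k * ((2 * d + 1) * (d + 1)) = (k + (k + k) * d) * (d + 1) by ring,
      pow_mul p (k + (k + k) * d) (d + 1), ← pow_mul p (k + k) d]
    refine Nat.pow_le_pow_left ?_ _
    rw [pow_add]
    exact Nat.mul_le_mul_right _ (hp.two_le.trans (Nat.le_self_pow (by omega) p))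
  calc (((flags (ZMod p) (W × W) k d).filter fun t => v ∈ t).card : ℝ)
      ≤ ((p ^ (k * ((2 * d + 1) * (d + 1))) : ℕ) : ℝ) := by exact_mod_cast hdeg.trans hnat
    _ = (p : ℝ) ^ (((k * ((2 * d + 1) * (d + 1)) : ℕ) : ℝ)) := by
        rw [Real.rpow_natCast]; push_cast; rfl
    _ ≤ (p : ℝ) ^ (((k * k : ℕ) : ℝ) * γ) := by
        refine Real.rpow_le_rpow_of_exponent_le (by exact_mod_cast hp.one_le) ?_
        push_cast at hkγ ⊢
        nlinarith [show (0 : ℝ) ≤ k from Nat.cast_nonneg k]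
    _ = ((p ^ (k * k) : ℕ) : ℝ) ^ γ := by
        rw [Real.rpow_mul (by positivity), Real.rpow_natCast]; push_cast; rfl
    _ ≤ (Fintype.card (Sub (ZMod p) (W × W) k d) : ℝ) ^ γ :=
        Real.rpow_le_rpow (by positivity) (by exact_mod_cast hcard) hγ.le

end Vale.Agent.P067.Sparse
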