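import Vale.Agent.P067.Sparse.Chains

/-!
P067: fillings of cycles in the complex of chains of subspaces of prescribed dimensions. The size
of the filling is bounded in terms of the dimensions only, independently of the field.
-/

set_option linter.unusedSectionVars false

namespace Vale.Agent.P067.Sparse

open Finset Module

variable {K V : Type} [Field K] [AddCommGroup V] [Module K V] [FiniteDimensional K V]

/-- `x` lies between `A` and `B` and has dimension in `[a, b]`. -/
def Vtx (A B : Submodule K V) (a b : ℕ) (x : Submodule K V) : Prop :=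
  A ≤ x ∧ x ≤ B ∧ a ≤ finrank K x ∧ finrank K x ≤ b

/-- A chain with `m` members among these subspaces. -/
def Face (A B : Submodule K V) (a b m : ℕ) (σ : Finset (Submodule K V)) : Prop :=
  σ.card = m ∧ (∀ x ∈ σ, Vtx A B a b x) ∧ ∀ x ∈ σ, ∀ y ∈ σ, x ≤ y ∨ y ≤ x

variable {A B : Submodule K V} {a b m : ℕ}

theorem Face.eq_of_finrank {σ : Finset (Submodule K V)} (h : Face A B a b m σ) {x y : Submodule K V}
    (hx : x ∈ σ) (hy : y ∈ σ) (he : finrank K x = finrank K y) : x = y :=
  (h.2.2 x hx y hy).elim (fun hle => Submodule.eq_of_le_of_finrank_eq hle he)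
    fun hle => (Submodule.eq_of_le_of_finrank_eq hle he.symm).symm

theorem Face.erase [DecidableEq (Submodule K V)] {σ : Finset (Submodule K V)}
    (h : Face A B a b (m + 1) σ) {x : Submodule K V} (hx : x ∈ σ) : Face A B a b m (σ.erase x) :=
  ⟨by rw [card_erase_of_mem hx, h.1, Nat.add_sub_cancel], fun y hy => h.2.1 y (mem_erase.1 hy).2,
    fun y hy w hw => h.2.2 y (mem_erase.1 hy).2 w (mem_erase.1 hw).2⟩

theorem Face.insert [DecidableEq (Submodule K V)] {σ : Finset (Submodule K V)}
    (h : Face A B a b m σ) {x : Submodule K V} (hx : x ∉ σ) (hv : Vtx A B a b x)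
    (hc : ∀ y ∈ σ, x ≤ y ∨ y ≤ x) : Face A B a b (m + 1) (insert x σ) := by
  refine ⟨by rw [card_insert_of_notMem hx, h.1], fun y hy => ?_, fun y hy w hw => ?_⟩
  · rcases mem_insert.1 hy with rfl | hy
    exacts [hv, h.2.1 y hy]
  · rcases mem_insert.1 hy with rfl | hy' <;> rcases mem_insert.1 hw with rfl | hw'
    exacts [Or.inl le_rfl, hc w hw', (hc y hy').symm, h.2.2 y hy' w hw']

theorem Face.mono {A' B' : Submodule K V} {a' b' : ℕ} {σ : Finset (Submodule K V)}
    (h : Face A' B' a' b' m σ) (hA : A ≤ A') (hB : B' ≤ B) (ha : a ≤ a') (hb : b' ≤ b) :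
    Face A B a b m σ :=
  ⟨h.1, fun x hx => ⟨hA.trans (h.2.1 x hx).1, (h.2.1 x hx).2.1.trans hB,
    ha.trans (h.2.1 x hx).2.2.1, (h.2.1 x hx).2.2.2.trans hb⟩, h.2.2⟩

theorem on_bd [DecidableEq (Submodule K V)] {y : Ch (Submodule K V)}
    (hy : On (Face A B a b (m + 1)) y) : On (Face A B a b m) (bd y) := by
  intro σ hσ
  obtain ⟨τ, hτ, x, hx, rfl⟩ := mem_support_bd hσ
  exact (hy τ hτ).erase hx

theorem finrank_sup_line {x : Submodule K V} {v : V} (hv : v ∉ x) :
    finrank K (x ⊔ Submodule.span K {v} : Submodule K V) = finrank K x + 1 := by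
  have hv0 : v ≠ 0 := fun h => hv (h ▸ x.zero_mem)
  have h := Submodule.finrank_sup_add_finrank_inf_eq x (Submodule.span K {v})
  have hbot : x ⊓ Submodule.span K {v} = ⊥ :=
    disjoint_iff.1 ((Submodule.disjoint_span_singleton' hv0).2 hv)
  rw [hbot, finrank_bot, add_zero, finrank_span_singleton hv0] at h
  exact h

section Eliminate

variable {α : Type*} [DecidableEq α]

theorem add_sum_cone_lk (U : Finset α) (z : Ch α)
    (h1 : ∀ σ ∈ z.support, ∀ x ∈ U, ∀ y ∈ U, x ∈ σ → y ∈ σ → x = y) :
    z + ∑ x ∈ U, cone x (lk x z) = z.filter (fun σ => ∀ x ∈ U, x ∉ σ) := by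
  have key : ∀ σ ∈ z.support, Finsupp.single σ (z σ) +
      ∑ x ∈ U, cone x (lk x (Finsupp.single σ (z σ))) =
        if ∀ x ∈ U, x ∉ σ then Finsupp.single σ (z σ) else 0 := by
    intro σ hσ
    have e : Finsupp.single σ (z σ) = z σ • Finsupp.single σ 1 := by
      rw [Finsupp.smul_single, smul_eq_mul, mul_one]
    rw [e]
    simp only [map_smul, lk_single]
    split_ifs with h
    · rw [sum_eq_zero fun x hx => ?_, add_zero]
      rw [if_neg (h x hx), map_zero, smul_zero]
    · push Not at h
      obtain ⟨x, hx, hxσ⟩ := h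
      rw [sum_eq_single x (fun y hy hyx => ?_) (fun hn => absurd hx hn), if_pos hxσ, cone_single,
        if_neg (by simp : x ∉ σ.erase x), insert_erase hxσ]
      · exact add_self_eq_zero' _
      · rw [if_neg fun hyσ => hyx (h1 σ hσ y hy x hx hyσ hxσ), map_zero, smul_zero]
  have hz : z = ∑ σ ∈ z.support, Finsupp.single σ (z σ) := by
    conv_lhs => rw [← Finsupp.sum_single z]
    rfl
  conv_lhs => rw [hz]
  simp only [map_sum]
  rw [sum_comm, ← sum_add_distrib, sum_congr rfl key, ← sum_filter]
  conv_rhs => rw [← Finsupp.sum_single (z.filter fun σ => ∀ x ∈ U, x ∉ σ)]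
  rw [Finsupp.sum, Finsupp.support_filter]
  exact sum_congr rfl fun σ hσ => by rw [Finsupp.filter_apply_pos _ _ (mem_filter.1 hσ).2]

theorem eliminate (U : Finset α) {z : Ch α}
    (h1 : ∀ σ ∈ z.support, ∀ x ∈ U, ∀ y ∈ U, x ∈ σ → y ∈ σ → x = y) (f : α → Ch α) {M : ℕ}
    (hf : ∀ x ∈ U, bd (f x) = lk x z ∧ (f x).support.card ≤ M * (lk x z).support.card) :
    (∑ x ∈ U, cone x (f x)).support.card ≤ M * z.support.card ∧
      z + bd (∑ x ∈ U, cone x (f x)) =
        z.filter (fun σ => ∀ x ∈ U, x ∉ σ) + ∑ x ∈ U, f x ∧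
      (z + bd (∑ x ∈ U, cone x (f x))).support.card ≤ (1 + M) * z.support.card := by
  have hsum : ∑ x ∈ U, (lk x z).support.card ≤ z.support.card := by
    refine (sum_le_sum fun x _ => card_lk_le x z).trans ?_
    rw [← card_biUnion fun x hx y hy hxy => disjoint_left.2 fun σ hσx hσy => hxy
      (h1 σ (mem_filter.1 hσx).1 x hx y hy (mem_filter.1 hσx).2 (mem_filter.1 hσy).2)]
    exact card_le_card fun σ hσ => by
      obtain ⟨x, -, hσx⟩ := mem_biUnion.1 hσ
      exact (mem_filter.1 hσx).1
  have hfsum : ∑ x ∈ U, (f x).support.card ≤ M * z.support.card :=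
    (sum_le_sum fun x hx => (hf x hx).2).trans
      (by rw [← mul_sum]; exact Nat.mul_le_mul_left M hsum)
  have e : z + bd (∑ x ∈ U, cone x (f x)) =
      z.filter (fun σ => ∀ x ∈ U, x ∉ σ) + ∑ x ∈ U, f x := by
    rw [map_sum, ← add_sum_cone_lk U z h1, add_assoc, ← sum_add_distrib]
    refine congrArg (z + ·) (sum_congr rfl fun x hx => ?_)
    have h := bd_cone x (f x)
    rw [(hf x hx).1] at h
    conv_rhs => rw [← h]
    rw [add_comm (bd _), ← add_assoc, add_self_eq_zero', zero_add]
  refine ⟨((card_support_sum_le _ _).trans (sum_le_sum fun x _ => card_cone_le x (f x))).trans hfsum,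
    e, ?_⟩
  rw [e, add_mul, one_mul]
  refine (card_le_card Finsupp.support_add).trans ((card_union_le _ _).trans (add_le_add ?_ ?_))
  · rw [Finsupp.support_filter]
    exact card_filter_le _ _
  · exact (card_support_sum_le _ _).trans hfsum

theorem on_filter_add {P Q : Finset α → Prop} {U : Finset α} {z : Ch α} {f : α → Ch α}
    (h1 : ∀ σ ∈ z.support, (∀ x ∈ U, x ∉ σ) → Q σ) (h2 : ∀ x ∈ U, On P (f x))
    (hPQ : ∀ x ∈ U, ∀ σ, P σ → Q σ) :
    On Q (z.filter (fun σ => ∀ x ∈ U, x ∉ σ) + ∑ x ∈ U, f x) := by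
  refine On.add (fun σ hσ => ?_) (On.sum fun x hx => (h2 x hx).mono (hPQ x hx))
  rw [Finsupp.support_filter, mem_filter] at hσ
  exact h1 σ hσ.1 hσ.2

end Eliminate

/-- Fillings of bounded size; `M` depends only on `n` and `m`. -/
theorem fill (n : ℕ) : ∀ m : ℕ, ∃ M : ℕ, ∀ (K V : Type) [Field K] [AddCommGroup V] [Module K V]
    [FiniteDimensional K V] [DecidableEq (Submodule K V)] (A B : Submodule K V) (a b : ℕ),
    A ≤ B → finrank K B ≤ finrank K A + n → finrank K A ≤ a → a + m ≤ b → b ≤ finrank K B →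
    ∀ z : Ch (Submodule K V), On (Face A B a b m) z → bd z = 0 →
    ∃ y : Ch (Submodule K V), On (Face A B a b (m + 1)) y ∧ bd y = z ∧
      y.support.card ≤ M * z.support.card := by
  classical
  induction n with
  | zero =>
    intro m
    refine ⟨1, fun K V _ _ _ _ _ A B a b hAB hn ha hab hb z hz hcyc => ?_⟩
    refine ⟨cone A z, fun σ hσ => ?_, bd_cone_of_cycle A hcyc,
      by simpa using card_cone_le A z⟩
    obtain ⟨τ, hτ, hA, rfl⟩ := mem_support_cone hσ
    exact (hz τ hτ).insert hA ⟨le_rfl, hAB, by omega, by omega⟩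
      fun y hy => Or.inl ((hz τ hτ).2.1 y hy).1
  | succ n ih =>
    intro m
    obtain ⟨M₁, hM₁⟩ := ih (m - 1)
    obtain ⟨M₂, hM₂⟩ := ih m
    refine ⟨(2 + M₁) ^ (n + 2) * (1 + M₂) + 1,
      fun K V _ _ _ _ _ A B a b hAB hn ha hab hb z hz hcyc => ?_⟩
    by_cases ha' : a = finrank K A
    · refine ⟨cone A z, fun σ hσ => ?_, bd_cone_of_cycle A hcyc,
        (card_cone_le A z).trans (Nat.le_mul_of_pos_left _ (Nat.succ_pos _))⟩
      obtain ⟨τ, hτ, hA, rfl⟩ := mem_support_cone hσ
      exact (hz τ hτ).insert hA ⟨le_rfl, hAB, ha'.le, by omega⟩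
        fun y hy => Or.inl ((hz τ hτ).2.1 y hy).1
    by_cases hb' : b = finrank K B
    · refine ⟨cone B z, fun σ hσ => ?_, bd_cone_of_cycle B hcyc,
        (card_cone_le B z).trans (Nat.le_mul_of_pos_left _ (Nat.succ_pos _))⟩
      obtain ⟨τ, hτ, hA, rfl⟩ := mem_support_cone hσ
      exact (hz τ hτ).insert hA ⟨hAB, le_rfl, by omega, hb'.ge⟩
        fun y hy => Or.inr ((hz τ hτ).2.1 y hy).2.1
    have hlt : A < B := lt_of_le_of_ne hAB (fun h => by subst h; omega)
    obtain ⟨v, hvB, hvA⟩ := SetLike.exists_of_lt hlt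
    have loop : ∀ i, i ≤ b + 1 - a → ∃ y : Ch (Submodule K V),
        On (Face A B a b (m + 1)) y ∧
        On (fun σ => Face A B a b m σ ∧ ∀ x ∈ σ, v ∈ x ∨ finrank K x + i ≤ b) (z + bd y) ∧
        y.support.card ≤ (2 + M₁) ^ i * z.support.card ∧
        (z + bd y).support.card ≤ (2 + M₁) ^ i * z.support.card := by
      intro i
      induction i with
      | zero =>
        intro _
        refine ⟨0, On.zero, fun σ hσ => ?_, by simp, by simp⟩
        rw [map_zero, add_zero] at hσ
        exact ⟨hz σ hσ, fun x hx => Or.inr (by simpa using ((hz σ hσ).2.1 x hx).2.2.2)⟩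
      | succ i hi =>
        intro hle
        obtain ⟨y, hy, hz', hyc, hzc⟩ := hi (by omega)
        generalize hw : z + bd y = w at hz' hzc
        have hwc : bd w = 0 := by rw [← hw, map_add, hcyc, bd_bd, add_zero]
        let U : Finset (Submodule K V) :=
          (w.support.biUnion id).filter fun x => v ∉ x ∧ finrank K x + i = b
        have hU : ∀ x ∈ U, v ∉ x ∧ finrank K x + i = b := fun x hx => (mem_filter.1 hx).2
        have h1 : ∀ σ ∈ w.support, ∀ x ∈ U, ∀ x' ∈ U, x ∈ σ → x' ∈ σ → x = x' :=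
          fun σ hσ x hx x' hx' hxσ hxσ' => (hz' σ hσ).1.eq_of_finrank hxσ hxσ'
            (by have := (hU x hx).2; have := (hU x' hx').2; omega)
        have hex : ∀ x ∈ U, ∃ f : Ch (Submodule K V), bd f = lk x w ∧
            f.support.card ≤ (1 + M₁) * (lk x w).support.card ∧
            On (fun σ => Face A B a b m σ ∧ x ∉ σ ∧ (∀ u ∈ σ, x ≤ u ∨ u ≤ x) ∧
              ∀ u ∈ σ, v ∈ u ∨ finrank K u + (i + 1) ≤ b) f := by
          intro x hx
          obtain ⟨σ₀, hσ₀, hxσ₀⟩ := mem_biUnion.1 (mem_filter.1 hx).1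
          have hxσ₀ : x ∈ σ₀ := hxσ₀
          obtain ⟨hvx, hdx⟩ := hU x hx
          have hxV := (hz' σ₀ hσ₀).1.2.1 x hxσ₀
          obtain ⟨m', rfl⟩ : ∃ m', m = m' + 1 := ⟨m - 1, by
            have h := (hz' σ₀ hσ₀).1.1
            have := card_pos.2 ⟨x, hxσ₀⟩
            omega⟩
          have hlkc : bd (lk x w) = 0 := by rw [bd_lk, hwc, map_zero]
          have hl : ∀ σ ∈ (lk x w).support, Face A B a b m' σ ∧ x ∉ σ ∧
              (∀ u ∈ σ, x ≤ u ∨ u ≤ x) ∧ ∀ u ∈ σ, v ∈ u ∨ finrank K u + i + 1 ≤ b := by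
            intro σ hσ
            obtain ⟨τ, hτ, hxτ, rfl⟩ := mem_support_lk hσ
            refine ⟨(hz' τ hτ).1.erase hxτ, by simp, fun u hu => (hz' τ hτ).1.2.2 x hxτ u
              (mem_erase.1 hu).2, fun u hu => ?_⟩
            rcases (hz' τ hτ).2 u (mem_erase.1 hu).2 with h | h
            · exact Or.inl h
            · have hne : finrank K u ≠ finrank K x := fun he =>
                (mem_erase.1 hu).1 ((hz' τ hτ).1.eq_of_finrank (mem_erase.1 hu).2 hxτ he)
              right
              omega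
          rcases Nat.eq_zero_or_pos i with rfl | hipos
          · have hdown : On (Face A x a (b - 1) m') (lk x w) := by
              intro σ hσ
              obtain ⟨hσF, hxσ, hc, -⟩ := hl σ hσ
              refine ⟨hσF.1, fun u hu => ?_, hσF.2.2⟩
              obtain ⟨u1, -, u3, u4⟩ := hσF.2.1 u hu
              have hne : u ≠ x := fun e => hxσ (e ▸ hu)
              have hux : u ≤ x := (hc u hu).elim (fun h => by
                have := Submodule.finrank_lt_finrank_of_lt (lt_of_le_of_ne h hne.symm)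
                omega) id
              have := Submodule.finrank_lt_finrank_of_lt (lt_of_le_of_ne hux hne)
              exact ⟨u1, hux, u3, by omega⟩
            obtain ⟨f, hf, hbd, hfc⟩ := hM₁ K V A x a (b - 1) hxV.1 (by omega) ha
              (by omega) (by omega) _ (by simpa using hdown) hlkc
            refine ⟨f, hbd, hfc.trans (Nat.mul_le_mul_right _ (by omega)), fun σ hσ => ?_⟩
            have hF : Face A x a (b - 1) (m' + 1) σ := by simpa using hf σ hσ
            refine ⟨hF.mono le_rfl hxV.2.1 le_rfl (by omega), fun hxσ => ?_,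
              fun u hu => Or.inr (hF.2.1 u hu).2.1, fun u hu => Or.inr ?_⟩
            · have := (hF.2.1 x hxσ).2.2.2
              omega
            · have := (hF.2.1 u hu).2.2.2
              omega
          · have hr := finrank_sup_line hvx
            have hvr : v ∈ x ⊔ Submodule.span K {v} :=
              Submodule.mem_sup_right (Submodule.mem_span_singleton_self v)
            refine ⟨cone (x ⊔ Submodule.span K {v}) (lk x w), bd_cone_of_cycle _ hlkc,
              (card_cone_le _ _).trans (Nat.le_mul_of_pos_left _ (by omega)), fun σ hσ => ?_⟩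
            obtain ⟨τ, hτ, hrτ, rfl⟩ := mem_support_cone hσ
            obtain ⟨hτF, hxτ, hc, hd⟩ := hl τ hτ
            refine ⟨hτF.insert hrτ ⟨hxV.1.trans le_sup_left, sup_le hxV.2.1
              ((Submodule.span_singleton_le_iff_mem _ _).2 hvB), by omega, by omega⟩
              fun u hu => ?_, fun hxσ => ?_, fun u hu => ?_, fun u hu => ?_⟩
            · rcases hc u hu with h | h
              · rcases hd u hu with hvu | hdu
                · exact Or.inl (sup_le h ((Submodule.span_singleton_le_iff_mem _ _).2 hvu))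
                · have := Submodule.finrank_mono h
                  omega
              · exact Or.inr (h.trans le_sup_left)
            · rcases mem_insert.1 hxσ with e | h
              · exact hvx (e ▸ hvr)
              · exact hxτ h
            · rcases mem_insert.1 hu with rfl | h
              · exact Or.inl le_sup_left
              · exact hc u h
            · rcases mem_insert.1 hu with rfl | h
              · exact Or.inl hvr
              · exact (hd u h).imp id fun h => by omega
        choose! f hf using hex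
        obtain ⟨hΔc, hΔe, hΔz⟩ := eliminate U h1 f (M := 1 + M₁)
          fun x hx => ⟨(hf x hx).1, (hf x hx).2.1⟩
        refine ⟨y + ∑ x ∈ U, cone x (f x), hy.add (On.sum fun x hx σ hσ => ?_), ?_, ?_, ?_⟩
        · obtain ⟨τ, hτ, hxτ, rfl⟩ := mem_support_cone hσ
          obtain ⟨σ₀, hσ₀, hxσ₀⟩ := mem_biUnion.1 (mem_filter.1 hx).1
          obtain ⟨hτF, -, hc, -⟩ := (hf x hx).2.2 τ hτ
          exact hτF.insert hxτ ((hz' σ₀ hσ₀).1.2.1 x hxσ₀) hc
        · rw [map_add, ← add_assoc, hw, hΔe]
          refine on_filter_add (fun σ hσ hσU => ⟨(hz' σ hσ).1, fun x hx => ?_⟩)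
            (fun x hx => (hf x hx).2.2.mono fun σ h => ⟨h.1, h.2.2.2⟩) fun x _ σ h => h
          rcases (hz' σ hσ).2 x hx with h | h
          · exact Or.inl h
          · by_cases hvx : v ∈ x
            · exact Or.inl hvx
            · refine Or.inr (Nat.lt_of_le_of_ne h fun he => ?_)
              exact hσU x (mem_filter.2 ⟨mem_biUnion.2 ⟨σ, hσ, hx⟩, hvx, he⟩) hx
        · calc _ ≤ y.support.card + (∑ x ∈ U, cone x (f x)).support.card :=
                (card_le_card Finsupp.support_add).trans (card_union_le _ _)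
            _ ≤ (2 + M₁) ^ i * z.support.card +
                (1 + M₁) * ((2 + M₁) ^ i * z.support.card) :=
                add_le_add hyc (hΔc.trans (Nat.mul_le_mul_left _ hzc))
            _ = (2 + M₁) ^ (i + 1) * z.support.card := by ring
        · rw [map_add, ← add_assoc, hw]
          refine hΔz.trans ((Nat.mul_le_mul_left _ hzc).trans (le_of_eq ?_))
          ring
    obtain ⟨y, hy, hz', hyc, hzc⟩ := loop (b + 1 - a) le_rfl
    have hLr := finrank_sup_line hvA
    have hzL : On (Face (A ⊔ Submodule.span K {v}) B a b m) (z + bd y) := by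
      intro σ hσ
      obtain ⟨hF, hv⟩ := hz' σ hσ
      refine ⟨hF.1, fun x hx => ?_, hF.2.2⟩
      obtain ⟨x1, x2, x3, x4⟩ := hF.2.1 x hx
      refine ⟨sup_le x1 ((Submodule.span_singleton_le_iff_mem _ _).2 ?_), x2, x3, x4⟩
      exact (hv x hx).elim id fun h => by omega
    have hLB : A ⊔ Submodule.span K {v} ≤ B :=
      sup_le hAB ((Submodule.span_singleton_le_iff_mem _ _).2 hvB)
    obtain ⟨y', hy', hbd', hy'c⟩ := hM₂ K V _ B a b hLB (by omega) (by omega) hab hb _ hzL
      (by rw [map_add, hcyc, bd_bd, add_zero])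
    refine ⟨y' + y, (hy'.mono fun σ h => h.mono le_sup_left le_rfl le_rfl le_rfl).add hy, ?_, ?_⟩
    · rw [map_add, hbd', add_assoc, add_self_eq_zero', add_zero]
    · have hp : (2 + M₁) ^ (b + 1 - a) ≤ (2 + M₁) ^ (n + 2) :=
        Nat.pow_le_pow_right (by omega) (by omega)
      calc _ ≤ y'.support.card + y.support.card :=
            (card_le_card Finsupp.support_add).trans (card_union_le _ _)
        _ ≤ M₂ * ((2 + M₁) ^ (n + 2) * z.support.card) + (2 + M₁) ^ (n + 2) * z.support.card :=
            add_le_add (hy'c.trans (Nat.mul_le_mul_left _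
              (hzc.trans (Nat.mul_le_mul_right _ hp)))) (hyc.trans (Nat.mul_le_mul_right _ hp))
        _ ≤ _ := by ring_nf; omega

end Vale.Agent.P067.Sparse
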