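import Vale.Agent.P067.Sparse.Fill

/-!
P067: elementary linear algebra of subspaces: extension of flags, transitivity, counting.
-/

set_option linter.unusedSectionVars false

namespace Vale.Agent.P067.Sparse

open Finset Module

variable {K V : Type} [Field K] [AddCommGroup V] [Module K V] [FiniteDimensional K V]

theorem exists_between {A B : Submodule K V} {r : ℕ} (hAB : A ≤ B) (hA : finrank K A ≤ r)
    (hB : r ≤ finrank K B) : ∃ u : Submodule K V, A ≤ u ∧ u ≤ B ∧ finrank K u = r := by
  obtain ⟨n, rfl⟩ := Nat.exists_eq_add_of_le hA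
  induction n generalizing A with
  | zero => exact ⟨A, le_rfl, hAB, rfl⟩
  | succ n ih =>
    have hlt : A < B := lt_of_le_of_ne hAB (fun h => by subst h; omega)
    obtain ⟨v, hvB, hvA⟩ := SetLike.exists_of_lt hlt
    have h := finrank_sup_line (K := K) hvA
    obtain ⟨u, hu1, hu2, hu3⟩ := ih (sup_le hAB ((Submodule.span_singleton_le_iff_mem _ _).2 hvB))
      (by omega) (by omega)
    exact ⟨u, le_sup_left.trans hu1, hu2, by omega⟩

theorem exists_equiv_map {W : Type} [AddCommGroup W] [Module K W] [FiniteDimensional K W]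
    {X X' : Submodule K W} (h : finrank K X = finrank K X') :
    ∃ g : W ≃ₗ[K] W, ∀ x ∈ X, g x ∈ X' := by
  obtain ⟨Y, hY⟩ := X.exists_isCompl
  obtain ⟨Y', hY'⟩ := X'.exists_isCompl
  have hfin : finrank K Y = finrank K Y' := by
    have h1 := Submodule.finrank_add_eq_of_isCompl hY
    have h2 := Submodule.finrank_add_eq_of_isCompl hY'
    omega
  refine ⟨(Submodule.prodEquivOfIsCompl X Y hY).symm ≪≫ₗ
    (LinearEquiv.ofFinrankEq X X' h).prodCongr (LinearEquiv.ofFinrankEq Y Y' hfin) ≪≫ₗ
      Submodule.prodEquivOfIsCompl X' Y' hY', fun x hx => ?_⟩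
  have e : (Submodule.prodEquivOfIsCompl X Y hY).symm x = (⟨x, hx⟩, 0) :=
    Submodule.prodEquivOfIsCompl_symm_apply_left X Y hY ⟨x, hx⟩
  simp [e]

theorem exists_equiv_fixing {A B B' : Submodule K V} (h1 : A ≤ B) (h2 : A ≤ B')
    (h : finrank K B = finrank K B') :
    ∃ e : V ≃ₗ[K] V, (∀ x ∈ A, e x = x) ∧ B.map (e : V →ₗ[K] V) = B' := by
  obtain ⟨C, hC⟩ := A.exists_isCompl
  have hcod : ∀ U : Submodule K V, A ≤ U →
      finrank K (U.comap C.subtype) + finrank K A = finrank K U := by
    intro U hU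
    have e1 : finrank K (U.comap C.subtype) = finrank K (C ⊓ U : Submodule K V) := by
      rw [← Submodule.map_comap_subtype, Submodule.finrank_map_subtype_eq]
    have e2 : A ⊔ C ⊓ U = U := by
      rw [← sup_inf_assoc_of_le C hU, hC.sup_eq_top, top_inf_eq]
    have e3 := Submodule.finrank_sup_add_finrank_inf_eq A (C ⊓ U)
    rw [e2, ← inf_assoc, hC.inf_eq_bot, bot_inf_eq, finrank_bot, add_zero] at e3
    omega
  obtain ⟨g, hg⟩ := exists_equiv_map (W := C) (X := B.comap C.subtype) (X' := B'.comap C.subtype)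
    (by have := hcod B h1; have := hcod B' h2; omega)
  let P := Submodule.prodEquivOfIsCompl A C hC
  let e : V ≃ₗ[K] V := P.symm ≪≫ₗ (LinearEquiv.refl K A).prodCongr g ≪≫ₗ P
  have hP : ∀ q : A × C, P q = (q.1 : V) + (q.2 : V) := fun q =>
    Submodule.coe_prodEquivOfIsCompl' A C hC q
  have he : ∀ q : A × C, e (P q) = (q.1 : V) + (g q.2 : V) := fun q => by
    show P ((LinearEquiv.refl K A).prodCongr g (P.symm (P q))) = _
    rw [LinearEquiv.symm_apply_apply, hP]
    rfl
  refine ⟨e, fun x hx => ?_, ?_⟩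
  · have := he (⟨x, hx⟩, 0)
    simpa [hP] using this
  · refine Submodule.eq_of_le_of_finrank_eq (Submodule.map_le_iff_le_comap.2 fun x hx => ?_)
      (by rw [LinearEquiv.finrank_map_eq, h])
    obtain ⟨q, rfl⟩ := P.surjective x
    rw [Submodule.mem_comap, LinearEquiv.coe_coe, he]
    refine B'.add_mem (h2 q.1.2) (hg q.2 ?_)
    rw [Submodule.mem_comap, Submodule.coe_subtype]
    have h3 := B.sub_mem (hP q ▸ hx) (h1 q.1.2)
    rwa [add_sub_cancel_left] at h3

theorem exists_span_fin (d : ℕ) : ∀ {x U : Submodule K V}, x ≤ U →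
    finrank K U ≤ finrank K x + d → ∃ v : Fin d → V, U = x ⊔ Submodule.span K (Set.range v) := by
  induction d with
  | zero =>
    intro x U hxU h
    refine ⟨Fin.elim0, ?_⟩
    rw [Set.range_eq_empty, Submodule.span_empty, sup_bot_eq]
    exact (Submodule.eq_of_le_of_finrank_le hxU (by omega)).symm
  | succ d ih =>
    intro x U hxU h
    by_cases he : x = U
    · refine ⟨fun _ => 0, he.symm.trans ?_⟩
      rw [Set.range_const, Submodule.span_zero_singleton, sup_bot_eq]
    obtain ⟨w, hwU, hwx⟩ := SetLike.exists_of_lt (lt_of_le_of_ne hxU he)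
    have hr := finrank_sup_line (K := K) hwx
    obtain ⟨v, hv⟩ := ih (x := x ⊔ Submodule.span K {w})
      (sup_le hxU ((Submodule.span_singleton_le_iff_mem _ _).2 hwU)) (by omega)
    refine ⟨Fin.cons w v, ?_⟩
    rw [Fin.range_cons, Submodule.span_insert, ← sup_assoc]
    exact hv

theorem card_up_le [Finite V] (x : Submodule K V) (d : ℕ) :
    Nat.card {U : Submodule K V // x ≤ U ∧ finrank K U ≤ finrank K x + d} ≤ Nat.card V ^ d := by
  classical
  have : Fintype V := Fintype.ofFinite V
  have hpow : Nat.card V ^ d = Nat.card (Fin d → V) := by simp [Nat.card_eq_fintype_card]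
  rw [hpow]
  choose f hf using fun U : {U : Submodule K V // x ≤ U ∧ finrank K U ≤ finrank K x + d} =>
    exists_span_fin d U.2.1 U.2.2
  exact Nat.card_le_card_of_injective f fun U U' e => Subtype.ext (by rw [hf U, hf U', e])

theorem card_down_le [Finite K] [Finite V] (x : Submodule K V) (d : ℕ) :
    Nat.card {U : Submodule K V // U ≤ x ∧ finrank K x ≤ finrank K U + d} ≤ Nat.card V ^ d := by
  classical
  have e : Nat.card (Dual K V) = Nat.card V := by
    rw [Module.natCard_eq_pow_finrank (K := K), Module.natCard_eq_pow_finrank (K := K) (V := V),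
      Subspace.dual_finrank_eq]
  have : Finite (Dual K V) := Module.finite_of_finite K
  rw [← e]
  refine le_trans (Nat.card_le_card_of_injective
    (β := {W : Submodule K (Dual K V) //
      x.dualAnnihilator ≤ W ∧ finrank K W ≤ finrank K x.dualAnnihilator + d})
    (fun U => ⟨U.1.dualAnnihilator, Submodule.dualAnnihilator_anti U.2.1, ?_⟩) fun U U' h => ?_)
    (card_up_le _ _)
  · have h1 := Subspace.finrank_add_finrank_dualAnnihilator_eq U.1
    have h2 := Subspace.finrank_add_finrank_dualAnnihilator_eq x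
    have := U.2.2
    omega
  · refine Subtype.ext ?_
    have h' := congrArg Subtype.val h
    exact Subspace.dualAnnihilator_inj.1 h'

end Vale.Agent.P067.Sparse
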