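import Vale.Agent.P067.Sparse.Average
import Vale.Agent.P067.Sparse.Linear

/-!
P067: the complex of flags of subspaces of dimensions `k, ..., k + d` in a space of dimension `2k`
over a finite field.
-/

set_option linter.unusedSectionVars false

namespace Vale.Agent.P067.Sparse

open Finset Module

variable (K : Type) [Field K] (V : Type) [AddCommGroup V] [Module K V]
variable [Fintype V] [Finite K] [FiniteDimensional K V]

/-- The vertices: subspaces with dimension in `[k, k + d]`. -/
abbrev Sub (k d : ℕ) : Type := {W : Submodule K V // k ≤ finrank K W ∧ finrank K W ≤ k + d}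

noncomputable instance (k d : ℕ) : Fintype (Sub K V k d) :=
  have : Finite (Submodule K V) := Finite.of_injective _ SetLike.coe_injective
  Fintype.ofFinite _

noncomputable instance (k d : ℕ) : DecidableEq (Sub K V k d) := Classical.decEq _

/-- The top faces: chains with one subspace of each dimension. -/
noncomputable def flags (k d : ℕ) : Finset (Finset (Sub K V k d)) := by
  classical
  exact univ.filter fun t => t.card = d + 1 ∧ ∀ x ∈ t, ∀ y ∈ t, x.1 ≤ y.1 ∨ y.1 ≤ x.1

variable {K V} {k d : ℕ}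

theorem mem_flags {t : Finset (Sub K V k d)} :
    t ∈ flags K V k d ↔ t.card = d + 1 ∧ ∀ x ∈ t, ∀ y ∈ t, x.1 ≤ y.1 ∨ y.1 ≤ x.1 := by
  classical
  simp [flags]

theorem eq_of_rank {σ : Finset (Sub K V k d)}
    (hσ : ∀ x ∈ σ, ∀ y ∈ σ, x.1 ≤ y.1 ∨ y.1 ≤ x.1) {x y : Sub K V k d} (hx : x ∈ σ) (hy : y ∈ σ)
    (he : finrank K x.1 = finrank K y.1) : x = y :=
  Subtype.ext ((hσ x hx y hy).elim (fun h => Submodule.eq_of_le_of_finrank_eq h he)
    fun h => (Submodule.eq_of_le_of_finrank_eq h he.symm).symm)

theorem chain_card_le {σ : Finset (Sub K V k d)}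
    (hσ : ∀ x ∈ σ, ∀ y ∈ σ, x.1 ≤ y.1 ∨ y.1 ≤ x.1) : σ.card ≤ d + 1 := by
  refine (card_le_card_of_injOn (t := Icc k (k + d)) (fun x => finrank K x.1)
    (fun x _ => mem_Icc.2 x.2) fun x hx y hy he => eq_of_rank hσ hx hy he).trans ?_
  simp [Nat.card_Icc]
  omega

theorem exists_flag_superset (hn : k + d ≤ finrank K V) :
    ∀ (n : ℕ) (σ : Finset (Sub K V k d)), d + 1 = σ.card + n →
      (∀ x ∈ σ, ∀ y ∈ σ, x.1 ≤ y.1 ∨ y.1 ≤ x.1) → ∃ t ∈ flags K V k d, σ ⊆ t := by
  classical
  intro n
  induction n with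
  | zero => exact fun σ h hσ => ⟨σ, mem_flags.2 ⟨by omega, hσ⟩, subset_rfl⟩
  | succ n ih =>
    intro σ hc hσ
    have hne : ¬ Icc k (k + d) ⊆ σ.image fun x => finrank K x.1 := fun h => by
      have h' := (card_le_card h).trans card_image_le
      simp at h'
      omega
    obtain ⟨r, hr, hr'⟩ := Finset.not_subset.1 hne
    rw [mem_Icc] at hr
    let lo := σ.filter fun x => finrank K x.1 < r
    let hi := σ.filter fun x => ¬ finrank K x.1 < r
    have hL : finrank K (lo.sup fun x => x.1 : Submodule K V) ≤ r := by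
      rcases lo.eq_empty_or_nonempty with h | h
      · rw [h, Finset.sup_empty, finrank_bot]
        exact Nat.zero_le r
      · obtain ⟨m, hm, hmax⟩ := exists_max_image lo (fun x => finrank K x.1) h
        have hle : (lo.sup fun x => x.1) ≤ m.1 := Finset.sup_le fun x hx => by
          rcases hσ x (mem_filter.1 hx).1 m (mem_filter.1 hm).1 with h | h
          · exact h
          · exact (Submodule.eq_of_le_of_finrank_le h (hmax x hx)).ge
        exact (Submodule.finrank_mono hle).trans (mem_filter.1 hm).2.le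
    have hU : r ≤ finrank K (hi.inf fun x => x.1 : Submodule K V) := by
      rcases hi.eq_empty_or_nonempty with h | h
      · rw [h, Finset.inf_empty, finrank_top]
        omega
      · obtain ⟨m, hm, hmin⟩ := exists_min_image hi (fun x => finrank K x.1) h
        have hle : m.1 ≤ hi.inf fun x => x.1 := Finset.le_inf fun x hx => by
          rcases hσ x (mem_filter.1 hx).1 m (mem_filter.1 hm).1 with h | h
          · exact (Submodule.eq_of_le_of_finrank_le h (hmin x hx)).ge
          · exact h
        exact (not_lt.1 (mem_filter.1 hm).2).trans (Submodule.finrank_mono hle)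
    have hLU : (lo.sup fun x => x.1) ≤ hi.inf fun x => x.1 :=
      Finset.sup_le fun x hx => Finset.le_inf fun y hy => (hσ x (mem_filter.1 hx).1 y
        (mem_filter.1 hy).1).elim id fun h => absurd (Submodule.finrank_mono h) (by
          have := (mem_filter.1 hx).2
          have := (mem_filter.1 hy).2
          omega)
    obtain ⟨u, hu1, hu2, hu3⟩ := exists_between hLU hL hU
    let w : Sub K V k d := ⟨u, by omega⟩
    have hw : w ∉ σ := fun h => hr' (mem_image.2 ⟨w, h, hu3⟩)
    have hcomp : ∀ x ∈ σ, x.1 ≤ u ∨ u ≤ x.1 := fun x hx => by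
      by_cases hlt : finrank K x.1 < r
      · exact Or.inl ((Finset.le_sup (f := fun x => x.1) (mem_filter.2 ⟨hx, hlt⟩)).trans hu1)
      · exact Or.inr (hu2.trans (Finset.inf_le (f := fun x => x.1) (mem_filter.2 ⟨hx, hlt⟩)))
    obtain ⟨t, ht, hst⟩ := ih (insert w σ) (by rw [card_insert_of_notMem hw]; omega)
      fun x hx y hy => by
        rcases mem_insert.1 hx with rfl | hx' <;> rcases mem_insert.1 hy with rfl | hy'
        exacts [Or.inl le_rfl, (hcomp y hy').symm, hcomp x hx', hσ x hx' y hy']
    exact ⟨t, ht, (subset_insert _ _).trans hst⟩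

theorem mem_faces_flags (hn : k + d ≤ finrank K V) {m : ℕ} {σ : Finset (Sub K V k d)} :
    σ ∈ faces (flags K V k d) m ↔
      σ.card = m ∧ ∀ x ∈ σ, ∀ y ∈ σ, x.1 ≤ y.1 ∨ y.1 ≤ x.1 := by
  simp only [faces, mem_filter, mem_univ, true_and]
  refine and_congr_right fun _ => ⟨fun ⟨t, ht, hst⟩ x hx y hy =>
    (mem_flags.1 ht).2 x (hst hx) y (hst hy), fun h => ?_⟩
  exact exists_flag_superset hn (d + 1 - σ.card) σ (by have := chain_card_le h; omega) h

theorem isPure_flags (hn : k + d ≤ finrank K V) : IsPure d (flags K V k d) := by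
  refine ⟨?_, fun t ht => (mem_flags.1 ht).1, fun v => ?_⟩
  · obtain ⟨t, ht, -⟩ := exists_flag_superset (K := K) (V := V) (k := k) hn (d + 1) ∅ (by simp)
      (by simp)
    exact ⟨t, ht⟩
  · obtain ⟨t, ht, hv⟩ := exists_flag_superset hn d {v} (by rw [card_singleton]; omega)
      (by simp)
    exact ⟨t, ht, hv (mem_singleton_self v)⟩

theorem fill_flags (hn : k + d ≤ finrank K V) {M j : ℕ}
    (hM : ∀ z : Ch (Submodule K V), On (Face ⊥ ⊤ k (k + d) j) z → bd z = 0 →
      ∃ y : Ch (Submodule K V), On (Face ⊥ ⊤ k (k + d) (j + 1)) y ∧ bd y = z ∧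
        y.support.card ≤ M * z.support.card)
    (z : Ch (Sub K V k d)) (hz : On (· ∈ faces (flags K V k d) j) z) (hc : bd z = 0) :
    ∃ y : Ch (Sub K V k d), On (· ∈ faces (flags K V k d) (j + 1)) y ∧ bd y = z ∧
      y.support.card ≤ M * z.support.card := by
  classical
  have hinj : Function.Injective (Subtype.val : Sub K V k d → Submodule K V) := Subtype.val_injective
  obtain ⟨y', hy', hbd, hcard⟩ := hM (push Subtype.val z) (fun σ hσ => by
    obtain ⟨τ, hτ, rfl⟩ := mem_support_push hσ
    obtain ⟨hc', hch⟩ := (mem_faces_flags hn).1 (hz τ hτ)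
    refine ⟨by rw [card_image_of_injective _ hinj, hc'], fun x hx => ?_, fun x hx y hy => ?_⟩
    · obtain ⟨w, -, rfl⟩ := mem_image.1 hx
      exact ⟨bot_le, le_top, w.2⟩
    · obtain ⟨w, hw, rfl⟩ := mem_image.1 hx
      obtain ⟨w', hw', rfl⟩ := mem_image.1 hy
      exact hch w hw w' hw') (by rw [bd_push hinj, hc, map_zero])
  let back : Ch (Submodule K V) →ₗ[ZMod 2] Ch (Sub K V k d) :=
    Finsupp.lmapDomain (ZMod 2) (ZMod 2) fun σ => σ.subtype _
  have hback : push Subtype.val (back y') = y' := by
    refine eq_of_on (L := push Subtype.val ∘ₗ back) (L' := LinearMap.id)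
      (fun σ hσ => ?_) hy'
    simp only [LinearMap.comp_apply, LinearMap.id_apply, back, Finsupp.lmapDomain_apply,
      Finsupp.mapDomain_single, push_single]
    congr 1
    ext x
    simp only [mem_image, Finset.mem_subtype]
    exact ⟨fun ⟨w, hw, e⟩ => e ▸ hw, fun hx => ⟨⟨x, (hσ.2.1 x hx).2.2⟩, hx, rfl⟩⟩
  have hinj2 : Function.Injective (push (Subtype.val : Sub K V k d → Submodule K V)) :=
    Finsupp.mapDomain_injective (image_injective hinj)
  have hcardz : (push Subtype.val z).support.card ≤ z.support.card :=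
    (card_le_card Finsupp.mapDomain_support).trans card_image_le
  refine ⟨back y', fun σ hσ => ?_, hinj2 ?_, ?_⟩
  · obtain ⟨τ, hτ, rfl⟩ := mem_image.1 (Finsupp.mapDomain_support hσ)
    obtain ⟨hc', hv, hch⟩ := hy' τ hτ
    refine (mem_faces_flags hn).2 ⟨?_, fun x hx y hy => ?_⟩
    · rw [card_subtype, filter_true_of_mem fun x hx => (hv x hx).2.2, hc']
    · exact hch _ (Finset.mem_subtype.1 hx) _ (Finset.mem_subtype.1 hy)
  · rw [← bd_push hinj, hback, hbd]
  · exact ((card_le_card Finsupp.mapDomain_support).trans card_image_le).trans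
      (hcard.trans (Nat.mul_le_mul_left _ hcardz))

theorem exists_equiv_flags {t t' : Finset (Sub K V k d)} (ht : t ∈ flags K V k d)
    (ht' : t' ∈ flags K V k d) : ∀ i : ℕ, ∃ e : V ≃ₗ[K] V, ∀ x ∈ t, finrank K x.1 < k + i →
      ∃ y ∈ t', x.1.map (e : V →ₗ[K] V) = y.1 := by
  classical
  intro i
  induction i with
  | zero => exact ⟨LinearEquiv.refl K V, fun x _ h => absurd x.2.1 (by omega)⟩
  | succ i ih =>
    obtain ⟨e, he⟩ := ih
    by_cases hid : d < i
    · exact ⟨e, fun x hx _ => he x hx (by have := x.2.2; omega)⟩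
    have hrank : ∀ s ∈ flags K V k d, ∃ x ∈ s, finrank K x.1 = k + i := by
      intro s hs
      have h : (s.image fun x => finrank K x.1) = Icc k (k + d) := by
        refine eq_of_subset_of_card_le (fun r hr => ?_) (le_of_eq ?_)
        · obtain ⟨x, -, rfl⟩ := mem_image.1 hr
          exact mem_Icc.2 x.2
        · rw [card_image_of_injOn fun x hx y hy e => eq_of_rank (mem_flags.1 hs).2 hx hy e,
            (mem_flags.1 hs).1, Nat.card_Icc]
          omega
      obtain ⟨x, hx, hxr⟩ := mem_image.1 (h ▸ mem_Icc.2 ⟨by omega, by omega⟩ :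
        k + i ∈ s.image fun x => finrank K x.1)
      exact ⟨x, hx, hxr⟩
    obtain ⟨x, hx, hxr⟩ := hrank t ht
    obtain ⟨y, hy, hyr⟩ := hrank t' ht'
    let A : Submodule K V :=
      (t.filter fun w => finrank K w.1 < k + i).sup fun w => w.1.map (e : V →ₗ[K] V)
    have hA1 : A ≤ x.1.map (e : V →ₗ[K] V) := Finset.sup_le fun w hw => Submodule.map_mono <| by
      rcases (mem_flags.1 ht).2 w (mem_filter.1 hw).1 x hx with h | h
      · exact h
      · exact absurd (Submodule.finrank_mono h) (by have := (mem_filter.1 hw).2; omega)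
    have hA2 : A ≤ y.1 := Finset.sup_le fun w hw => by
      obtain ⟨w', hw', e'⟩ := he w (mem_filter.1 hw).1 (mem_filter.1 hw).2
      rw [e']
      have hr : finrank K w'.1 = finrank K w.1 := by rw [← e', LinearEquiv.finrank_map_eq]
      rcases (mem_flags.1 ht').2 w' hw' y hy with h | h
      · exact h
      · exact absurd (Submodule.finrank_mono h) (by have := (mem_filter.1 hw).2; omega)
    obtain ⟨e', hfix, hmap⟩ := exists_equiv_fixing hA1 hA2
      (by rw [LinearEquiv.finrank_map_eq, hxr, hyr])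
    refine ⟨e ≪≫ₗ e', fun w hw hwr => ?_⟩
    rw [LinearEquiv.coe_trans, Submodule.map_comp]
    rcases Nat.lt_or_ge (finrank K w.1) (k + i) with hlt | hge
    · obtain ⟨w', hw', hwe⟩ := he w hw hlt
      refine ⟨w', hw', ?_⟩
      have hwA : w.1.map (e : V →ₗ[K] V) ≤ A :=
        Finset.le_sup (f := fun w => w.1.map (e : V →ₗ[K] V)) (mem_filter.2 ⟨hw, hlt⟩)
      rw [← hwe]
      refine Submodule.eq_of_le_of_finrank_eq (Submodule.map_le_iff_le_comap.2 fun v hv => ?_)
        (LinearEquiv.finrank_map_eq _ _)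
      rw [Submodule.mem_comap, LinearEquiv.coe_coe, hfix v (hwA hv)]
      exact hv
    · have : w = x := eq_of_rank (mem_flags.1 ht).2 hw hx (by omega)
      exact ⟨y, hy, this ▸ hmap⟩

theorem transitive_flags {t t' : Finset (Sub K V k d)} (ht : t ∈ flags K V k d)
    (ht' : t' ∈ flags K V k d) : ∃ g ∈ autF (flags K V k d), t.image g = t' := by
  classical
  obtain ⟨e, he⟩ := exists_equiv_flags ht ht' (d + 1)
  let g : Equiv.Perm (Sub K V k d) :=
    (Submodule.orderIsoMapComap e).toEquiv.subtypeEquiv fun W => by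
      rw [show (Submodule.orderIsoMapComap e).toEquiv W = W.map (e : V →ₗ[K] V) from rfl,
        LinearEquiv.finrank_map_eq]
  have hg : ∀ x : Sub K V k d, (g x).1 = x.1.map (e : V →ₗ[K] V) := fun x => rfl
  have hle : ∀ x y : Sub K V k d, (g x).1 ≤ (g y).1 ↔ x.1 ≤ y.1 := fun x y =>
    (Submodule.orderIsoMapComap e).le_iff_le
  refine ⟨g, mem_autF.2 fun s => ?_, ?_⟩
  · rw [mem_flags, mem_flags, card_image_of_injective _ g.injective]
    simp only [forall_mem_image, hle]
  · refine eq_of_subset_of_card_le (fun y hy => ?_) ?_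
    · obtain ⟨x, hx, rfl⟩ := mem_image.1 hy
      obtain ⟨y', hy', e'⟩ := he x hx (by have := x.2.2; omega)
      rwa [show g x = y' from Subtype.ext ((hg x).trans e')]
    · rw [card_image_of_injective _ g.injective, (mem_flags.1 ht).1, (mem_flags.1 ht').1]

theorem degree_flags (x : Sub K V k d) :
    ((flags K V k d).filter fun t => x ∈ t).card ≤ (2 * Nat.card V ^ d) ^ (d + 1) := by
  classical
  let nb : Finset (Sub K V k d) := univ.filter fun y => x.1 ≤ y.1 ∨ y.1 ≤ x.1
  have hnb : nb.card ≤ 2 * Nat.card V ^ d := by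
    have : Finite (Submodule K V) := Finite.of_injective _ SetLike.coe_injective
    have h1 : (univ.filter fun y : Sub K V k d => x.1 ≤ y.1).card ≤ Nat.card V ^ d := by
      refine le_trans (le_of_eq ?_) ((Nat.card_le_card_of_injective
        (fun y : {y : Sub K V k d // x.1 ≤ y.1} =>
          (⟨y.1.1, y.2, by have := y.1.2.2; have := x.2.1; omega⟩ :
            {U : Submodule K V // x.1 ≤ U ∧ finrank K U ≤ finrank K x.1 + d}))
        fun y y' h => Subtype.ext (Subtype.ext (congrArg Subtype.val h :))).trans (card_up_le _ _))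
      rw [Nat.card_eq_fintype_card, Fintype.card_subtype]
    have h2 : (univ.filter fun y : Sub K V k d => y.1 ≤ x.1).card ≤ Nat.card V ^ d := by
      refine le_trans (le_of_eq ?_) ((Nat.card_le_card_of_injective
        (fun y : {y : Sub K V k d // y.1 ≤ x.1} =>
          (⟨y.1.1, y.2, by have := y.1.2.1; have := x.2.2; omega⟩ :
            {U : Submodule K V // U ≤ x.1 ∧ finrank K x.1 ≤ finrank K U + d}))
        fun y y' h => Subtype.ext (Subtype.ext (congrArg Subtype.val h :))).trans (card_down_le _ _))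
      rw [Nat.card_eq_fintype_card, Fintype.card_subtype]
    simp only [nb, filter_or]
    have := card_union_le (univ.filter fun y : Sub K V k d => x.1 ≤ y.1)
      (univ.filter fun y : Sub K V k d => y.1 ≤ x.1)
    omega
  refine le_trans (card_le_card fun t ht => ?_) ((card_powersetCard (d + 1) nb).le.trans
    ((Nat.choose_le_pow _ _).trans (Nat.pow_le_pow_left hnb _)))
  obtain ⟨ht, hxt⟩ := mem_filter.1 ht
  exact mem_powersetCard.2 ⟨fun y hy => mem_filter.2 ⟨mem_univ _, (mem_flags.1 ht).2 x hxt y hy⟩,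
    (mem_flags.1 ht).1⟩

/-- The graph of a linear map gives a vertex. -/
theorem card_vertices {W : Type} [AddCommGroup W] [Module K W] [FiniteDimensional K W] [Fintype W]
    (k d : ℕ) (hW : finrank K W = k) :
    Nat.card K ^ (k * k) ≤ Fintype.card (Sub K (W × W) k d) := by
  have : Finite (W →ₗ[K] W) := Module.finite_of_finite K
  have h : Nat.card (W →ₗ[K] W) = Nat.card K ^ (k * k) := by
    rw [Module.natCard_eq_pow_finrank (K := K), Module.finrank_linearMap, hW]
  rw [← h, ← Nat.card_eq_fintype_card]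
  have hr : ∀ f : W →ₗ[K] W, finrank K f.graph = k := fun f => by
    rw [LinearMap.graph_eq_range_prod, LinearMap.finrank_range_of_inj
      (fun a b hab => congrArg Prod.fst hab), hW]
  refine Nat.card_le_card_of_injective
    (fun f => (⟨f.graph, (hr f).ge, (hr f).le.trans (Nat.le_add_right _ _)⟩ : Sub K (W × W) k d))
    fun f f' he => LinearMap.ext fun w => ?_
  have he' : f.graph = f'.graph := congrArg Subtype.val he
  have hm : (w, f w) ∈ f'.graph := he' ▸ (LinearMap.mem_graph_iff f (w, f w)).2 rfl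
  exact (LinearMap.mem_graph_iff f' (w, f w)).1 hm

end Vale.Agent.P067.Sparse
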